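import Vale.Agent.P300.H242.Cpt
import Vale.Agent.P300.H142.Kap

/-!
# P300 / C1-YBAR : the interface of `Y = M̄_{0,5}` for the official node table `H142.kap`.
-/

open Topology Filter Set OnePoint

namespace Vale.Agent.P300.H242

noncomputable section

set_option linter.unusedSimpArgs false

/-- the words of the official table (15 nodes and the extra chart). -/
def ow : Fin 15 → List (Fin 5) :=
  ![[1, 0, 3, 2], [1, 2], [0, 3, 2, 1, 4], [2, 3, 2, 1, 4], [0, 1, 2, 1], [1], [0, 1, 3], [0, 1, 0, 2, 3], [0, 2, 3, 2], [], [0, 1, 0, 3, 2], [1, 2, 1, 4], [2, 1, 4], [0, 2, 1, 3], [2]]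

/-- the word of the extra chart `H142.kapX`. -/
def owX : List (Fin 5) := [1, 0, 2, 3, 2]

/-- the official node charts into `Y`. -/
def kapY (ν : Fin 15) : ℂ × ℂ → Y := kap (ow ν)

/-- the extra chart. -/
def kapYX : ℂ × ℂ → Y := kap owX

/-- `M_{0,5}` in the coordinates `(x, lam)` inside `Y`. -/
def io (z : ℂ × ℂ) : Y := kap [] (z.1 / z.2, z.2)

theorem W_eq : H142.W = U0 := by
  ext w
  simp only [H142.W, U0, mem_ofPred_eq, ne_eq, sub_eq_zero]
  constructor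
  · rintro ⟨h1, h2, h3, h4, h5⟩
    exact ⟨h1, h2, fun h => h3 h.symm, fun h => h4 h.symm, fun h => h5 h.symm⟩
  · rintro ⟨h1, h2, h3, h4, h5⟩
    exact ⟨h1, h2, fun h => h3 h.symm, fun h => h4 h.symm, fun h => h5 h.symm⟩

/-- from `(x, lam)` to the coordinates of chart `[]`. -/
theorem toUV_mem {z : ℂ × ℂ} (hz : z ∈ H142.U) : (z.1 / z.2, z.2) ∈ U0 := by
  obtain ⟨h1, h2, h3, h4, h5⟩ := hz
  refine ⟨div_ne_zero h1 h3, h3, ?_, sub_ne_zero.2 (Ne.symm h4), ?_⟩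
  · rw [sub_ne_zero]
    intro h
    rw [eq_comm, div_eq_one_iff_eq h3] at h
    exact h5 h
  · simp only [div_mul_cancel₀ _ h3]
    exact sub_ne_zero.2 (Ne.symm h2)

theorem fromUV_mem {p : ℂ × ℂ} (hp : p ∈ U0) : (p.1 * p.2, p.2) ∈ H142.U := by
  obtain ⟨h1, h2, h3, h4, h5⟩ := hp
  refine ⟨mul_ne_zero h1 h2, (sub_ne_zero.1 h5).symm, h2, (sub_ne_zero.1 h4).symm, ?_⟩
  intro h
  simp only at h
  apply h3
  have : (1 - p.1) * p.2 = 0 := by linear_combination -h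
  exact (mul_eq_zero.1 this).resolve_right h2

/-- `kap ν` in terms of the word `ow ν`. -/
theorem kap_wU (ν : Fin 15) {p : ℂ × ℂ} (hp : p ∈ U0) :
    H142.kap ν p = ((wU (ow ν) p).1 * (wU (ow ν) p).2, (wU (ow ν) p).2) := by
  have e1 : (wU (ow ν) p).1 * (wU (ow ν) p).2 = cc (wU (ow ν) p) 2 := rfl
  have e2 : (wU (ow ν) p).2 = cc (wU (ow ν) p) 1 := rfl
  rw [e1, e2, cc_wU _ _ hp, cc_wU _ _ hp]
  clear e1 e2
  obtain ⟨u, v⟩ := p
  obtain ⟨h1, h2, h3, h4, h5⟩ := hp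
  simp only at h1 h2 h3 h4 h5
  have h3' : u - 1 ≠ 0 := fun h => h3 (by linear_combination -h)
  have h4' : v - 1 ≠ 0 := fun h => h4 (by linear_combination -h)
  have h5' : 1 - v * u ≠ 0 := by rwa [mul_comm v u]
  have e0 : 1 - (1 - v) / (1 - u * v) = v * (1 - u) / (1 - u * v) := by
    rw [eq_div_iff h5, sub_mul, div_mul_cancel₀ _ h5]; ring
  have e4 : 1 - u * (1 - v) / (1 - u * v) = (1 - u) / (1 - u * v) := by
    rw [eq_div_iff h5, sub_mul, div_mul_cancel₀ _ h5]; ring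
  fin_cases ν
  · have hw : (wr (ow 0)).p 2 = 0 ∧ (wr (ow 0)).m 2 = M6.j ∧ (wr (ow 0)).p 1 = 3 ∧
        (wr (ow 0)).m 1 = M6.e := by decide
    obtain ⟨q1, q2, q3, q4⟩ := hw
    change H142.kap 0 _ = ((((wr (ow 0)).m 2).actC (cc (u, v) ((wr (ow 0)).p 2))),
      (((wr (ow 0)).m 1).actC (cc (u, v) ((wr (ow 0)).p 1))))
    rw [q1, q2, q3, q4]
    simp [M6.actC, cc, H142.kap, e0, e4]
  · have hw : (wr (ow 1)).p 2 = 1 ∧ (wr (ow 1)).m 2 = M6.j ∧ (wr (ow 1)).p 1 = 3 ∧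
        (wr (ow 1)).m 1 = M6.e := by decide
    obtain ⟨q1, q2, q3, q4⟩ := hw
    change H142.kap 1 _ = ((((wr (ow 1)).m 2).actC (cc (u, v) ((wr (ow 1)).p 2))),
      (((wr (ow 1)).m 1).actC (cc (u, v) ((wr (ow 1)).p 1))))
    rw [q1, q2, q3, q4]
    simp [M6.actC, cc, H142.kap, e0, e4]
  · have hw : (wr (ow 2)).p 2 = 1 ∧ (wr (ow 2)).m 2 = M6.j ∧ (wr (ow 2)).p 1 = 4 ∧
        (wr (ow 2)).m 1 = M6.s := by decide
    obtain ⟨q1, q2, q3, q4⟩ := hw
    change H142.kap 2 _ = ((((wr (ow 2)).m 2).actC (cc (u, v) ((wr (ow 2)).p 2))),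
      (((wr (ow 2)).m 1).actC (cc (u, v) ((wr (ow 2)).p 1))))
    rw [q1, q2, q3, q4]
    simp [M6.actC, cc, H142.kap, e0, e4]
  · have hw : (wr (ow 3)).p 2 = 0 ∧ (wr (ow 3)).m 2 = M6.j ∧ (wr (ow 3)).p 1 = 2 ∧
        (wr (ow 3)).m 1 = M6.s := by decide
    obtain ⟨q1, q2, q3, q4⟩ := hw
    change H142.kap 3 _ = ((((wr (ow 3)).m 2).actC (cc (u, v) ((wr (ow 3)).p 2))),
      (((wr (ow 3)).m 1).actC (cc (u, v) ((wr (ow 3)).p 1))))
    rw [q1, q2, q3, q4]
    simp [M6.actC, cc, H142.kap, e0, e4]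
  · have hw : (wr (ow 4)).p 2 = 2 ∧ (wr (ow 4)).m 2 = M6.js ∧ (wr (ow 4)).p 1 = 0 ∧
        (wr (ow 4)).m 1 = M6.e := by decide
    obtain ⟨q1, q2, q3, q4⟩ := hw
    change H142.kap 4 _ = ((((wr (ow 4)).m 2).actC (cc (u, v) ((wr (ow 4)).p 2))),
      (((wr (ow 4)).m 1).actC (cc (u, v) ((wr (ow 4)).p 1))))
    rw [q1, q2, q3, q4]
    simp [M6.actC, cc, H142.kap, e0, e4]
  · have hw : (wr (ow 5)).p 2 = 1 ∧ (wr (ow 5)).m 2 = M6.e ∧ (wr (ow 5)).p 1 = 2 ∧
        (wr (ow 5)).m 1 = M6.e := by decide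
    obtain ⟨q1, q2, q3, q4⟩ := hw
    change H142.kap 5 _ = ((((wr (ow 5)).m 2).actC (cc (u, v) ((wr (ow 5)).p 2))),
      (((wr (ow 5)).m 1).actC (cc (u, v) ((wr (ow 5)).p 1))))
    rw [q1, q2, q3, q4]
    simp [M6.actC, cc, H142.kap, e0, e4]
  · have hw : (wr (ow 6)).p 2 = 1 ∧ (wr (ow 6)).m 2 = M6.e ∧ (wr (ow 6)).p 1 = 0 ∧
        (wr (ow 6)).m 1 = M6.s := by decide
    obtain ⟨q1, q2, q3, q4⟩ := hw
    change H142.kap 6 _ = ((((wr (ow 6)).m 2).actC (cc (u, v) ((wr (ow 6)).p 2))),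
      (((wr (ow 6)).m 1).actC (cc (u, v) ((wr (ow 6)).p 1))))
    rw [q1, q2, q3, q4]
    simp [M6.actC, cc, H142.kap, e0, e4]
  · have hw : (wr (ow 7)).p 2 = 0 ∧ (wr (ow 7)).m 2 = M6.e ∧ (wr (ow 7)).p 1 = 1 ∧
        (wr (ow 7)).m 1 = M6.s := by decide
    obtain ⟨q1, q2, q3, q4⟩ := hw
    change H142.kap 7 _ = ((((wr (ow 7)).m 2).actC (cc (u, v) ((wr (ow 7)).p 2))),
      (((wr (ow 7)).m 1).actC (cc (u, v) ((wr (ow 7)).p 1))))
    rw [q1, q2, q3, q4]
    simp [M6.actC, cc, H142.kap, e0, e4]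
  · have hw : (wr (ow 8)).p 2 = 4 ∧ (wr (ow 8)).m 2 = M6.e ∧ (wr (ow 8)).p 1 = 0 ∧
        (wr (ow 8)).m 1 = M6.e := by decide
    obtain ⟨q1, q2, q3, q4⟩ := hw
    change H142.kap 8 _ = ((((wr (ow 8)).m 2).actC (cc (u, v) ((wr (ow 8)).p 2))),
      (((wr (ow 8)).m 1).actC (cc (u, v) ((wr (ow 8)).p 1))))
    rw [q1, q2, q3, q4]
    simp [M6.actC, cc, H142.kap, e0, e4]
  · have hw : (wr (ow 9)).p 2 = 2 ∧ (wr (ow 9)).m 2 = M6.e ∧ (wr (ow 9)).p 1 = 1 ∧
        (wr (ow 9)).m 1 = M6.e := by decide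
    obtain ⟨q1, q2, q3, q4⟩ := hw
    change H142.kap 9 _ = ((((wr (ow 9)).m 2).actC (cc (u, v) ((wr (ow 9)).p 2))),
      (((wr (ow 9)).m 1).actC (cc (u, v) ((wr (ow 9)).p 1))))
    rw [q1, q2, q3, q4]
    simp [M6.actC, cc, H142.kap, e0, e4]
  · have hw : (wr (ow 10)).p 2 = 0 ∧ (wr (ow 10)).m 2 = M6.js ∧ (wr (ow 10)).p 1 = 1 ∧
        (wr (ow 10)).m 1 = M6.j := by decide
    obtain ⟨q1, q2, q3, q4⟩ := hw
    change H142.kap 10 _ = ((((wr (ow 10)).m 2).actC (cc (u, v) ((wr (ow 10)).p 2))),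
      (((wr (ow 10)).m 1).actC (cc (u, v) ((wr (ow 10)).p 1))))
    rw [q1, q2, q3, q4]
    simp [M6.actC, cc, H142.kap, e0, e4]
  · have hw : (wr (ow 11)).p 2 = 2 ∧ (wr (ow 11)).m 2 = M6.j ∧ (wr (ow 11)).p 1 = 1 ∧
        (wr (ow 11)).m 1 = M6.j := by decide
    obtain ⟨q1, q2, q3, q4⟩ := hw
    change H142.kap 11 _ = ((((wr (ow 11)).m 2).actC (cc (u, v) ((wr (ow 11)).p 2))),
      (((wr (ow 11)).m 1).actC (cc (u, v) ((wr (ow 11)).p 1))))
    rw [q1, q2, q3, q4]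
    simp [M6.actC, cc, H142.kap, e0, e4]
  · have hw : (wr (ow 12)).p 2 = 1 ∧ (wr (ow 12)).m 2 = M6.j ∧ (wr (ow 12)).p 1 = 2 ∧
        (wr (ow 12)).m 1 = M6.j := by decide
    obtain ⟨q1, q2, q3, q4⟩ := hw
    change H142.kap 12 _ = ((((wr (ow 12)).m 2).actC (cc (u, v) ((wr (ow 12)).p 2))),
      (((wr (ow 12)).m 1).actC (cc (u, v) ((wr (ow 12)).p 1))))
    rw [q1, q2, q3, q4]
    simp [M6.actC, cc, H142.kap, e0, e4]
  · have hw : (wr (ow 13)).p 2 = 4 ∧ (wr (ow 13)).m 2 = M6.js ∧ (wr (ow 13)).p 1 = 0 ∧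
        (wr (ow 13)).m 1 = M6.js := by decide
    obtain ⟨q1, q2, q3, q4⟩ := hw
    change H142.kap 13 _ = ((((wr (ow 13)).m 2).actC (cc (u, v) ((wr (ow 13)).p 2))),
      (((wr (ow 13)).m 1).actC (cc (u, v) ((wr (ow 13)).p 1))))
    rw [q1, q2, q3, q4]
    simp [M6.actC, cc, H142.kap, e0, e4]
  · have hw : (wr (ow 14)).p 2 = 3 ∧ (wr (ow 14)).m 2 = M6.e ∧ (wr (ow 14)).p 1 = 1 ∧
        (wr (ow 14)).m 1 = M6.j := by decide
    obtain ⟨q1, q2, q3, q4⟩ := hw
    change H142.kap 14 _ = ((((wr (ow 14)).m 2).actC (cc (u, v) ((wr (ow 14)).p 2))),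
      (((wr (ow 14)).m 1).actC (cc (u, v) ((wr (ow 14)).p 1))))
    rw [q1, q2, q3, q4]
    simp [M6.actC, cc, H142.kap, e0, e4]

theorem kapX_wU {p : ℂ × ℂ} (hp : p ∈ U0) :
    H142.kapX p = ((wU owX p).1 * (wU owX p).2, (wU owX p).2) := by
  have e1 : (wU owX p).1 * (wU owX p).2 = cc (wU owX p) 2 := rfl
  have e2 : (wU owX p).2 = cc (wU owX p) 1 := rfl
  rw [e1, e2, cc_wU _ _ hp, cc_wU _ _ hp]
  have hw : (wr owX).p 2 = 0 ∧ (wr owX).m 2 = M6.e ∧ (wr owX).p 1 = 4 ∧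
      (wr owX).m 1 = M6.e := by decide
  obtain ⟨q1, q2, q3, q4⟩ := hw
  rw [q1, q2, q3, q4]
  simp [M6.actC, cc, H142.kapX]

theorem io_fromUV {p : ℂ × ℂ} (hp : p ∈ U0) : io (p.1 * p.2, p.2) = kap [] p := by
  simp only [io, mul_div_cancel_right₀ _ hp.2.1]

/-- the official charts on `M_{0,5}`. -/
theorem kapY_eq (ν : Fin 15) {w : ℂ × ℂ} (hw : w ∈ H142.W) : kapY ν w = io (H142.kap ν w) := by
  rw [W_eq] at hw
  rw [kap_wU ν hw, io_fromUV (wU_mem _ hw), kapY, kap_U0 _ hw]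

theorem kapYX_eq {w : ℂ × ℂ} (hw : w ∈ H142.W) : kapYX w = io (H142.kapX w) := by
  rw [W_eq] at hw
  rw [kapX_wU hw, io_fromUV (wU_mem _ hw), kapYX, kap_U0 _ hw]

/-- the inverse of `kap ν : W → U`. -/
def ikap (ν : Fin 15) (z : ℂ × ℂ) : ℂ × ℂ := wU (ow ν).reverse (z.1 / z.2, z.2)

theorem kap_memU (ν : Fin 15) {w : ℂ × ℂ} (hw : w ∈ H142.W) : H142.kap ν w ∈ H142.U := by
  rw [W_eq] at hw
  rw [kap_wU ν hw]
  exact fromUV_mem (wU_mem _ hw)

theorem ikap_mem (ν : Fin 15) {z : ℂ × ℂ} (hz : z ∈ H142.U) : ikap ν z ∈ H142.W := by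
  rw [W_eq]
  exact wU_mem _ (toUV_mem hz)

theorem kap_ikap (ν : Fin 15) {z : ℂ × ℂ} (hz : z ∈ H142.U) : H142.kap ν (ikap ν z) = z := by
  have h := toUV_mem hz
  rw [ikap, kap_wU ν (wU_mem _ h), wU_reverse' _ h]
  simp only [div_mul_cancel₀ _ hz.2.2.1]

theorem ikap_kap (ν : Fin 15) {w : ℂ × ℂ} (hw : w ∈ H142.W) : ikap ν (H142.kap ν w) = w := by
  rw [W_eq] at hw
  have h := wU_mem (ow ν) hw
  rw [kap_wU ν hw, ikap]
  simp only [mul_div_cancel_right₀ _ h.2.1]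
  exact wU_reverse _ hw

theorem bijOn_kap (ν : Fin 15) : BijOn (H142.kap ν) H142.W H142.U :=
  ⟨fun _ h => kap_memU ν h, fun a ha b hb h => by
    rw [← ikap_kap ν ha, ← ikap_kap ν hb, h], fun z hz => ⟨_, ikap_mem ν hz, kap_ikap ν hz⟩⟩

theorem io_injOn : InjOn io H142.U := by
  intro z hz z' hz' h
  have h1 := kap_injOn [] (U0_sub (toUV_mem hz)) (U0_sub (toUV_mem hz')) h
  simp only [Prod.mk.injEq] at h1
  obtain ⟨h2, h3⟩ := h1
  refine Prod.ext ?_ h3
  rw [h3, div_left_inj' hz'.2.2.1] at h2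
  exact h2

theorem io_image : io '' H142.U = UY := by
  ext y
  constructor
  · rintro ⟨z, hz, rfl⟩
    exact mem_image_of_mem _ (toUV_mem hz)
  · rintro ⟨p, hp, rfl⟩
    exact ⟨_, fromUV_mem hp, io_fromUV hp⟩

theorem isOpen_HU : IsOpen H142.U := by
  refine IsOpen.inter ?_ (IsOpen.inter ?_ (IsOpen.inter ?_ (IsOpen.inter ?_ ?_)))
  · exact isOpen_ne_fun continuous_fst continuous_const
  · exact isOpen_ne_fun continuous_fst continuous_const
  · exact isOpen_ne_fun continuous_snd continuous_const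
  · exact isOpen_ne_fun continuous_snd continuous_const
  · exact isOpen_ne_fun continuous_fst continuous_snd

/-- `M_{0,5}` in the coordinates `(x, lam)` as an open piece of `Y`. -/
def ioH : OpenPartialHomeomorph (ℂ × ℂ) Y where
  toFun := io
  invFun y := ((unkap [] y).1 * (unkap [] y).2, (unkap [] y).2)
  source := H142.U
  target := UY
  map_source' z hz := by rw [← io_image]; exact mem_image_of_mem _ hz
  map_target' y hy := by
    obtain ⟨p, hp, rfl⟩ := hy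
    have : unkap [] (kap [] p) = p := (chart []).left_inv (U0_sub hp)
    rw [this]
    exact fromUV_mem hp
  left_inv' z hz := by
    have : unkap [] (kap [] (z.1 / z.2, z.2)) = (z.1 / z.2, z.2) :=
      (chart []).left_inv (U0_sub (toUV_mem hz))
    simp only [io]
    rw [this]
    simp only [div_mul_cancel₀ _ hz.2.2.1]
  right_inv' y hy := by
    obtain ⟨p, hp, rfl⟩ := hy
    have : unkap [] (kap [] p) = p := (chart []).left_inv (U0_sub hp)
    rw [this]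
    exact io_fromUV hp
  open_source := isOpen_HU
  open_target := isOpen_UY
  continuousOn_toFun := by
    refine (chart []).continuousOn_toFun.comp (f := fun z : ℂ × ℂ => (z.1 / z.2, z.2)) ?_
      fun z hz => U0_sub (toUV_mem hz)
    exact ContinuousOn.prodMk (continuousOn_fst.div continuousOn_snd fun z hz => hz.2.2.1)
      continuousOn_snd
  continuousOn_invFun := by
    have h : ContinuousOn (unkap []) UY := by
      refine (chart []).continuousOn_invFun.mono ?_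
      rintro _ ⟨p, hp, rfl⟩
      exact (chart []).map_source (U0_sub hp)
    exact (continuous_fst.mul continuous_snd).comp_continuousOn h |>.prodMk
      (continuous_snd.comp_continuousOn h)

@[simp] theorem ioH_coe : (ioH : ℂ × ℂ → Y) = io := rfl
@[simp] theorem ioH_source : ioH.source = H142.U := rfl
@[simp] theorem ioH_target : ioH.target = UY := rfl

/-- the official charts as open partial homeomorphisms. -/
def chartY (ν : Fin 15) : OpenPartialHomeomorph (ℂ × ℂ) Y := chart (ow ν)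

@[simp] theorem chartY_coe (ν : Fin 15) : (chartY ν : ℂ × ℂ → Y) = kapY ν := rfl
@[simp] theorem chartY_source (ν : Fin 15) : (chartY ν).source = Om := rfl

theorem kapY_injOn (ν : Fin 15) : InjOn (kapY ν) Om := kap_injOn _

theorem kapY_mem_UY (ν : Fin 15) {p : ℂ × ℂ} (hp : p ∈ Om) : kapY ν p ∈ UY ↔ p ∈ H142.W := by
  rw [W_eq]; exact kap_mem_UY _ hp

/-- the closed ray `[1, ∞)` in `ℂ`. -/
def ray : Set ℂ := ((↑) : ℝ → ℂ) '' Ici 1

theorem isClosed_ray : IsClosed ray :=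
  (Complex.isometry_ofReal.isClosedEmbedding.isClosedMap) _ isClosed_Ici

theorem R_eq : H142.R = {w | w.1 ∉ ray ∧ w.2 ∉ ray ∧ w.1 * w.2 ∉ ray} := by
  ext w
  simp only [H142.R, ray, mem_ofPred_eq, mem_image, mem_Ici, not_exists, not_and]
  constructor
  · intro h
    exact ⟨fun t ht e => (h t ht).1 e.symm, fun t ht e => (h t ht).2.1 e.symm,
      fun t ht e => (h t ht).2.2 e.symm⟩
  · rintro ⟨h1, h2, h3⟩ t ht
    exact ⟨fun e => h1 t ht e.symm, fun e => h2 t ht e.symm, fun e => h3 t ht e.symm⟩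

theorem isOpen_R : IsOpen H142.R := by
  rw [R_eq]
  exact (isClosed_ray.isOpen_compl.preimage continuous_fst).inter
    ((isClosed_ray.isOpen_compl.preimage continuous_snd).inter
      (isClosed_ray.isOpen_compl.preimage (continuous_fst.mul continuous_snd)))

theorem one_mem_ray : (1 : ℂ) ∈ ray := ⟨1, by simp, by simp⟩

theorem R_sub_Om : H142.R ⊆ Om := by
  rw [R_eq]
  rintro w ⟨h1, h2, h3⟩
  refine ⟨fun h => h1 ?_, fun h => h2 ?_, fun h => h3 ?_⟩
  · rw [← sub_eq_zero.1 h]; exact one_mem_ray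
  · rw [← sub_eq_zero.1 h]; exact one_mem_ray
  · rw [← sub_eq_zero.1 h]; exact one_mem_ray

theorem notMem_ray_of_norm {z : ℂ} (h : ‖z‖ ≤ 1) (h1 : z ≠ 1) : z ∉ ray := by
  rintro ⟨t, ht, rfl⟩
  rw [Complex.norm_real, Real.norm_eq_abs, abs_of_nonneg (zero_le_one.trans ht)] at h
  have ht1 : t = 1 := le_antisymm h ht
  rw [ht1] at h1
  simp at h1

/-- `z / (z - 1)` is not in the ray when `|z| ≤ 1`, `z ≠ 1`. -/
theorem notMem_ray_m {z : ℂ} (h : ‖z‖ ≤ 1) (h1 : z ≠ 1) : z / (z - 1) ∉ ray := by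
  rintro ⟨t, ht, e⟩
  have h1' : z - 1 ≠ 0 := sub_ne_zero.2 h1
  rw [eq_div_iff h1'] at e
  have e2 : ((t - 1 : ℝ) : ℂ) * z = t := by push_cast; linear_combination e
  have e3 := congrArg norm e2
  rw [norm_mul, Complex.norm_real, Complex.norm_real, Real.norm_eq_abs, Real.norm_eq_abs,
    abs_of_nonneg (sub_nonneg.2 ht), abs_of_nonneg (zero_le_one.trans ht)] at e3
  have ht' : (1 : ℝ) ≤ t := ht
  nlinarith [norm_nonneg z]

/-- auxiliary: `v (1 - u) / (1 - u v)`. -/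
theorem notMem_ray_a {u v : ℂ} (hu : ‖u‖ ≤ 1) (hv : ‖v‖ ≤ 1) (hu1 : u ≠ 1) (hv1 : v ≠ 1)
    (h : 1 - u * v ≠ 0) : v * (1 - u) / (1 - u * v) ∉ ray := by
  rintro ⟨t, ht, e⟩
  have ht' : (1 : ℝ) ≤ t := ht
  rw [eq_div_iff h] at e
  -- v * (1 + (t - 1) u) = t
  have e2 : v * (1 + ((t - 1 : ℝ) : ℂ) * u) = t := by push_cast; linear_combination -e
  have e3 := congrArg norm e2
  rw [norm_mul, Complex.norm_real, Real.norm_eq_abs, abs_of_nonneg (zero_le_one.trans ht')] at e3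
  by_cases h1 : t = 1
  · subst h1
    simp at e2
    exact hv1 e2
  · have h2 : 0 < t - 1 := sub_pos.2 (lt_of_le_of_ne ht' (Ne.symm h1))
    have h3 : ‖1 + ((t - 1 : ℝ) : ℂ) * u‖ < t := by
      have hs : ‖(1 : ℂ) + ((t - 1 : ℝ) : ℂ) * u‖ ^ 2 < t ^ 2 := by
        rw [← Complex.normSq_eq_norm_sq, Complex.normSq_apply]
        simp only [Complex.add_re, Complex.one_re, Complex.mul_re, Complex.ofReal_re,
          Complex.ofReal_im, zero_mul, sub_zero, Complex.add_im, Complex.one_im, Complex.mul_im,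
          zero_add, add_zero]
        have hn : u.re ^ 2 + u.im ^ 2 ≤ 1 := by
          have := Complex.normSq_eq_norm_sq u
          rw [Complex.normSq_apply] at this
          nlinarith [norm_nonneg u]
        have hre : u.re < 1 := by
          by_contra hc
          push Not at hc
          have him : u.im = 0 := by nlinarith [sq_nonneg u.im]
          have hre' : u.re = 1 := by nlinarith [sq_nonneg (u.re - 1)]
          exact hu1 (Complex.ext (by simpa using hre') (by simpa using him))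
        nlinarith [mul_le_mul_of_nonneg_left hn (sq_nonneg (t - 1)),
          mul_lt_mul_of_pos_left hre h2]
      exact lt_of_pow_lt_pow_left₀ 2 (by linarith) hs
    have h4 : ‖v‖ * ‖1 + ((t - 1 : ℝ) : ℂ) * u‖ ≤ 1 * ‖1 + ((t - 1 : ℝ) : ℂ) * u‖ :=
      mul_le_mul_of_nonneg_right hv (norm_nonneg _)
    linarith

/-- auxiliary: `- u (1 - v) / (1 - u)`. -/
theorem notMem_ray_c {u v : ℂ} (hu : ‖u‖ ≤ 1) (hv : ‖v‖ ≤ 1) (hu1 : u ≠ 1) (hv1 : v ≠ 1)
    (h : 1 - u * v ≠ 0) : -(u * (1 - v)) / (1 - u) ∉ ray := by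
  rintro ⟨t, ht, e⟩
  have ht' : (1 : ℝ) ≤ t := ht
  have hu' : 1 - u ≠ 0 := sub_ne_zero.2 (Ne.symm hu1)
  rw [eq_div_iff hu'] at e
  have e2 : u * (v + ((t - 1 : ℝ) : ℂ)) = t := by push_cast; linear_combination -e
  have e3 := congrArg norm e2
  rw [norm_mul, Complex.norm_real, Real.norm_eq_abs, abs_of_nonneg (zero_le_one.trans ht')] at e3
  by_cases h1 : t = 1
  · subst h1
    simp at e2
    exact h (by linear_combination -e2)
  · have h2 : 0 < t - 1 := sub_pos.2 (lt_of_le_of_ne ht' (Ne.symm h1))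
    have h3 : ‖v + ((t - 1 : ℝ) : ℂ)‖ < t := by
      have hs : ‖v + ((t - 1 : ℝ) : ℂ)‖ ^ 2 < t ^ 2 := by
        rw [← Complex.normSq_eq_norm_sq, Complex.normSq_apply]
        simp only [Complex.add_re, Complex.ofReal_re, Complex.add_im, Complex.ofReal_im, add_zero]
        have hn : v.re ^ 2 + v.im ^ 2 ≤ 1 := by
          have := Complex.normSq_eq_norm_sq v
          rw [Complex.normSq_apply] at this
          nlinarith [norm_nonneg v]
        have hre : v.re < 1 := by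
          by_contra hc
          push Not at hc
          have him : v.im = 0 := by nlinarith [sq_nonneg v.im]
          have hre' : v.re = 1 := by nlinarith [sq_nonneg (v.re - 1)]
          exact hv1 (Complex.ext (by simpa using hre') (by simpa using him))
        nlinarith [mul_lt_mul_of_pos_left hre h2]
      exact lt_of_pow_lt_pow_left₀ 2 (by linarith) hs
    have h4 : ‖u‖ * ‖v + ((t - 1 : ℝ) : ℂ)‖ ≤ 1 * ‖v + ((t - 1 : ℝ) : ℂ)‖ :=
      mul_le_mul_of_nonneg_right hu (norm_nonneg _)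
    linarith

theorem g03 {u v : ℂ} (h3 : 1 - u ≠ 0) (h4 : 1 - v ≠ 0) (h5 : 1 - u * v ≠ 0) :
    gU 0 (gU 3 (u, v)) = (-(u * (1 - v)) / (1 - u), -(v * (1 - u)) / (1 - v)) := by
  have h3' : u - 1 ≠ 0 := fun h => h3 (by linear_combination -h)
  have h4' : v - 1 ≠ 0 := fun h => h4 (by linear_combination -h)
  have d1 : 1 - u * (1 - v) / (1 - u * v) = (1 - u) / (1 - u * v) := by
    rw [eq_div_iff h5, sub_mul, div_mul_cancel₀ _ h5]; ring
  have d2 : 1 - u * (1 - v) / (1 - u * v) * (v / (v - 1)) = 1 / (1 - u * v) := by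
    field_simp; ring
  have f1 : u * (1 - v) / (1 - u * v) / (u * (1 - v) / (1 - u * v) - 1) =
      -(u * (1 - v)) / (1 - u) := by
    have : u * (1 - v) / (1 - u * v) - 1 = -((1 - u) / (1 - u * v)) := by
      rw [← d1]; ring
    rw [this, div_neg, div_div_div_cancel_right₀ h5, neg_div]
  have f2 : v / (v - 1) * (1 - u * (1 - v) / (1 - u * v)) /
      (1 - u * (1 - v) / (1 - u * v) * (v / (v - 1))) = -(v * (1 - u)) / (1 - v) := by
    rw [d1, d2, div_mul_div_comm, div_div_eq_mul_div, div_one, div_mul_eq_mul_div,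
      div_eq_div_iff (mul_ne_zero h4' h5) h4]
    ring
  simp only [gU, f1, f2]

theorem KK_sub_R : KK ⊆ H142.R := by
  rw [R_eq]
  refine iUnion₂_subset fun s hs => ?_
  rintro _ ⟨⟨u, v⟩, hp, rfl⟩
  obtain ⟨h3, h4, h5⟩ := KB_sub hp
  obtain ⟨hu, hv, -⟩ := hp
  simp only at hu hv h3 h4 h5
  have h3' : u - 1 ≠ 0 := fun h => h3 (by linear_combination -h)
  have h4' : v - 1 ≠ 0 := fun h => h4 (by linear_combination -h)
  have hu1 : u ≠ 1 := sub_ne_zero.1 h3'
  have hv1 : v ≠ 1 := sub_ne_zero.1 h4'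
  have h5' : 1 - v * u ≠ 0 := by rwa [mul_comm v u]
  have h5s : u * v - 1 ≠ 0 := fun h => h5 (by linear_combination -h)
  have huv : ‖u * v‖ ≤ 1 := by rw [norm_mul]; exact mul_le_one₀ hu (norm_nonneg _) hv
  have huv1 : u * v ≠ 1 := fun h => h5 (by rw [h]; ring)
  -- the basic facts
  have b1 : u ∉ ray := notMem_ray_of_norm hu hu1
  have b2 : v ∉ ray := notMem_ray_of_norm hv hv1
  have b3 : u * v ∉ ray := notMem_ray_of_norm huv huv1
  have b4 : u / (u - 1) ∉ ray := notMem_ray_m hu hu1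
  have b5 : v / (v - 1) ∉ ray := notMem_ray_m hv hv1
  have b6 : u * v / (u * v - 1) ∉ ray := notMem_ray_m huv huv1
  have b7 : v * (1 - u) / (1 - u * v) ∉ ray := notMem_ray_a hu hv hu1 hv1 h5
  have b8 : u * (1 - v) / (1 - v * u) ∉ ray := notMem_ray_a hv hu hv1 hu1 h5'
  have b9 : -(u * (1 - v)) / (1 - u) ∉ ray := notMem_ray_c hu hv hu1 hv1 h5
  have b10 : -(v * (1 - u)) / (1 - v) ∉ ray := notMem_ray_c hv hu hv1 hu1 h5'
  have c1 : u / (u - 1) * (v * (1 - u) / (1 - u * v)) = u * v / (u * v - 1) := by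
    rw [div_mul_div_comm, div_eq_div_iff (mul_ne_zero h3' h5) h5s]; ring
  have c2 : u * (1 - v) / (1 - u * v) * (v / (v - 1)) = u * v / (u * v - 1) := by
    rw [div_mul_div_comm, div_eq_div_iff (mul_ne_zero h5 h4') h5s]; ring
  have c3 : v * u = u * v := mul_comm _ _
  have f3 : -(u * (1 - v)) / (1 - u) * (-(v * (1 - u)) / (1 - v)) = u * v := by
    rw [div_mul_div_comm, div_eq_iff (mul_ne_zero h3 h4)]; ring
  simp only [D8, List.mem_cons, List.not_mem_nil, or_false] at hs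
  rcases hs with rfl | rfl | rfl | rfl | rfl | rfl | rfl | rfl
  · exact ⟨b1, b2, b3⟩
  · refine ⟨b4, b7, ?_⟩
    simp only [wU, gU]; rw [c1]; exact b6
  · refine ⟨?_, b5, ?_⟩
    · simp only [wU, gU]; rw [mul_comm u v]; exact b8
    · simp only [wU, gU]; rw [c2]; exact b6
  · refine ⟨b2, b1, ?_⟩
    simp only [wU, gU]; rw [c3]; exact b3
  · simp only [wU]
    rw [g03 h3 h4 h5]
    refine ⟨b9, b10, ?_⟩
    simp only; rw [f3]; exact b3
  · simp only [wU, gU]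
    refine ⟨b5, b8, ?_⟩
    simp only; rw [c3]
    rw [show v / (v - 1) * (u * (1 - v) / (1 - u * v)) =
      u * (1 - v) / (1 - u * v) * (v / (v - 1)) by ring, c2]; exact b6
  · simp only [wU, gU]
    refine ⟨?_, b4, ?_⟩
    · simp only; rw [c3]; exact b7
    · simp only; rw [c3]
      rw [show v * (1 - u) / (1 - u * v) * (u / (u - 1)) =
        u / (u - 1) * (v * (1 - u) / (1 - u * v)) by ring, c1]; exact b6
  · simp only [wU]
    change gU 0 (gU 3 (v, u)) ∈ _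
    rw [g03 h4 h3 h5']
    refine ⟨b10, b9, ?_⟩
    simp only; rw [mul_comm, f3]; exact b3

/-- the node (official table) of a word of the compactness argument, and the symmetry. -/
def nd' : M6 → Fin 5 → Bool → Fin 15 × List (Fin 5)
  | .e, 0, false => (6, [3])
  | .e, 0, true => (10, [0])
  | .e, 1, false => (5, [])
  | .e, 1, true => (0, [0])
  | .e, 2, false => (9, [])
  | .e, 2, true => (8, [0, 3])
  | .e, 3, false => (14, [])
  | .e, 3, true => (8, [0])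
  | .e, 4, false => (8, [0, 3])
  | .e, 4, true => (14, [3])
  | .s, 0, false => (2, [0, 4])
  | .s, 0, true => (11, [0, 3])
  | .s, 1, false => (3, [4])
  | .s, 1, true => (4, [0, 3, 4])
  | .s, 2, false => (4, [3, 4])
  | .s, 2, true => (3, [0, 4])
  | .s, 3, false => (7, [0, 4])
  | .s, 3, true => (3, [4])
  | .s, 4, false => (10, [0, 3, 4])
  | .s, 4, true => (12, [0, 4])
  | .j, 0, false => (13, [3])
  | .j, 0, true => (0, [3, 4])
  | .j, 1, false => (12, [4])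
  | .j, 1, true => (10, [3, 4])
  | .j, 2, false => (11, [4])
  | .j, 2, true => (10, [0, 3, 4])
  | .j, 3, false => (1, [])
  | .j, 3, true => (0, [0, 3])
  | .j, 4, false => (0, [0])
  | .j, 4, true => (1, [3])
  | .sj, 0, false => (2, [4])
  | .sj, 0, true => (1, [0, 3, 4])
  | .sj, 1, false => (3, [0, 4])
  | .sj, 1, true => (7, [4])
  | .sj, 2, false => (4, [0, 3, 4])
  | .sj, 2, true => (7, [0, 4])
  | .sj, 3, false => (7, [4])
  | .sj, 3, true => (4, [3, 4])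
  | .sj, 4, false => (10, [3, 4])
  | .sj, 4, true => (11, [0, 4])
  | .js, 0, false => (13, [])
  | .js, 0, true => (4, [])
  | .js, 1, false => (12, [0, 4])
  | .js, 1, true => (11, [4])
  | .js, 2, false => (11, [0, 4])
  | .js, 2, true => (12, [4])
  | .js, 3, false => (1, [3])
  | .js, 3, true => (5, [])
  | .js, 4, false => (0, [0, 3])
  | .js, 4, true => (5, [3])
  | .m, 0, false => (6, [])
  | .m, 0, true => (7, [0, 3])
  | .m, 1, false => (5, [3])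
  | .m, 1, true => (1, [])
  | .m, 2, false => (9, [3])
  | .m, 2, true => (14, [])
  | .m, 3, false => (14, [3])
  | .m, 3, true => (9, [])
  | .m, 4, false => (8, [0])
  | .m, 4, true => (9, [3])

theorem nd'_spec (a : M6) (i : Fin 5) (b : Bool) :
    wr (fW a i b).reverse = wr (ow (nd' a i b).1 ++ (nd' a i b).2) := by
  cases a <;> fin_cases i <;> cases b <;> exact Wr.ext' (by decide)

theorem nd'_stab (a : M6) (i : Fin 5) (b : Bool) :
    ∀ k ∈ (nd' a i b).2, k = 0 ∨ k = 3 ∨ k = 4 := by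
  cases a <;> fin_cases i <;> cases b <;> decide

theorem nd'_D8 (a : M6) (i : Fin 5) (b : Bool) : (nd' a i b).2 ∈ D8 := by
  cases a <;> fin_cases i <;> cases b <;> decide

theorem coverY_U0 {p : ℂ × ℂ} (hp : p ∈ U0) : ∃ ν : Fin 15, ∃ q ∈ KK, kapY ν q = kap [] p := by
  obtain ⟨a, i, b, h⟩ := exists_box hp
  refine ⟨(nd' a i b).1, wU (nd' a i b).2 (wU (fW a i b) p), ?_, ?_⟩
  · exact mem_iUnion₂.2 ⟨_, nd'_D8 a i b, mem_image_of_mem _ h⟩
  · rw [kapY, ← kap_append_stab _ (nd'_stab a i b) (KB_sub h), ← kap_congr_wr (nd'_spec a i b),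
      kap_U0 _ (wU_mem _ hp), wU_reverse _ hp]

/-- **`Y` is covered by the 15 official charts, restricted to the compact `KK ⊆ R`.** -/
theorem coverY (y : Y) : ∃ ν : Fin 15, ∃ q ∈ KK, kapY ν q = y := by
  have hc : IsCompact (⋃ ν : Fin 15, kapY ν '' KK) :=
    isCompact_iUnion fun ν => isCompact_KK.image_of_continuousOn
      ((chartY ν).continuousOn_toFun.mono KK_sub)
  have h1 : UY ⊆ ⋃ ν : Fin 15, kapY ν '' KK := by
    rintro _ ⟨p, hp, rfl⟩
    obtain ⟨ν, q, hq, h⟩ := coverY_U0 hp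
    exact mem_iUnion.2 ⟨ν, q, hq, h⟩
  have h2 : closure UY ⊆ ⋃ ν : Fin 15, kapY ν '' KK :=
    closure_minimal h1 hc.isClosed
  obtain ⟨ν, q, hq, h⟩ := mem_iUnion.1 (h2 (dense_UY y))
  exact ⟨ν, q, hq, h⟩

/-- the node regions. -/
def NR (ν : Fin 15) : Set Y := kapY ν '' H142.R

theorem isOpen_NR (ν : Fin 15) : IsOpen (NR ν) :=
  (chartY ν).isOpen_image_of_subset_source isOpen_R R_sub_Om

theorem iUnion_NR : ⋃ ν, NR ν = univ := by
  refine eq_univ_of_forall fun y => ?_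
  obtain ⟨ν, q, hq, h⟩ := coverY y
  exact mem_iUnion.2 ⟨ν, q, KK_sub_R hq, h⟩

/-- the five `P^1`-coordinates. -/
def crd (j : Fin 5) (y : Y) : P1 := y.1 j

theorem continuous_crd (j : Fin 5) : Continuous (crd j) :=
  (continuous_apply j).comp continuous_subtype_val

theorem crd_ext {y y' : Y} (h : ∀ j, crd j y = crd j y') : y = y' :=
  Subtype.ext (funext h)

/-- the five coordinates on `M_{0,5}`. -/
theorem crd_io {z : ℂ × ℂ} (hz : z ∈ H142.U) (j : Fin 5) :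
    crd j (io z) = ((cc (z.1 / z.2, z.2) j : ℂ) : P1) := by
  rw [crd, io, kap_val [] (U0_sub (toUV_mem hz))]; rfl

end

end Vale.Agent.P300.H242
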