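import Vale.Agent.P300.H242.Trans
import Vale.Agent.P300.H921.TorMod

/-!
# P300, block YBAR: the value of `Mod.YData`

`yData : Mod.YData H142.R Mod.kapU Y` for the compact Hausdorff space `Y` of `H242/YBar.lean`, with
the node charts `kapY ν` of the frozen table and the inclusion `io` of `U`.
-/

open Set Topology

namespace Vale.Agent.P300.H242

noncomputable section

/-- The inclusion of `U` (as a type) in `Y`. -/
def incY (p : H142.U) : Y := io p.1

theorem incY_injective : Function.Injective incY := fun p q h =>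
  Subtype.ext (io_injOn p.2 q.2 h)

theorem range_incY : range incY = UY := by
  rw [← io_image]
  ext y
  constructor
  · rintro ⟨p, rfl⟩
    exact ⟨p.1, p.2, rfl⟩
  · rintro ⟨z, hz, rfl⟩
    exact ⟨⟨z, hz⟩, rfl⟩

theorem isOpenEmbedding_incY : IsOpenEmbedding incY := by
  refine ioH.isOpenEmbedding_restrict

theorem isOpen_kapY_image (ν : Fin 15) {V : Set (ℂ × ℂ)} (hV : V ⊆ Om) (ho : IsOpen V) :
    IsOpen (kapY ν '' V) :=
  (chartY ν).isOpen_image_of_subset_source ho hV

theorem continuousOn_kapY (ν : Fin 15) : ContinuousOn (kapY ν) Om := (chartY ν).continuousOn_toFun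

theorem mem_W_iff_Rp {w : ℂ × ℂ} (hw : w ∈ H142.R) : w ∈ H142.W ↔ w ∈ H753.Rp H142.R := by
  constructor
  · intro h
    exact ⟨hw, h.1, h.2.1⟩
  · intro h
    exact Mod.Rp_subset_W h

/-- **The compactification `Y` of `U` with the fifteen node charts**, as a value of `Mod.YData`. -/
def yData : Mod.YData H142.R Mod.kapU Y where
  kY := kapY
  cont ν := (continuousOn_kapY ν).mono R_sub_Om
  inj ν := (kapY_injOn ν).mono R_sub_Om
  opn ν V hV ho := isOpen_kapY_image ν (hV.trans R_sub_Om) ho
  cover y := by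
    obtain ⟨ν, q, hq, h⟩ := coverY y
    exact ⟨ν, q, KK_sub_R hq, h⟩
  inc := incY
  inc_inj := incY_injective
  inc_kap ν w hw := by
    have h : w ∈ H142.W := Mod.Rp_subset_W hw
    rw [kapY_eq ν h, incY, Mod.kapU_val h]
  bdry ν w hw h := by
    rw [range_incY, kapY_mem_UY ν (R_sub_Om hw)] at h
    exact (mem_W_iff_Rp hw).1 h

@[simp] theorem yData_kY (ν : Fin 15) : yData.kY ν = kapY ν := rfl

@[simp] theorem yData_inc : yData.inc = incY := rfl

end

end Vale.Agent.P300.H242
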