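import Vale.Agent.P300.H242.Eqv

/-!
# P300 / [YBAR] : the compact surface `Y = M̄_{0,5}` as a closed subset of `(P^1)^5`,
with its node charts.
-/

open Topology Filter Set OnePoint

namespace Vale.Agent.P300.H242

noncomputable section

theorem act_kap0 (i : Fin 5) {p : ℂ × ℂ} (hp : p ∈ U0) :
    (gen i).act (kap0 p) = kap0 (gU i p) := by
  funext k
  have h := cc_ne hp ((gen i).p k)
  simp only [Wr.act, kap0, M6.act_coe _ h.1 h.2, actC_cc i k hp]

/-- a word acting on `M_{0,5}`. -/
def wU : List (Fin 5) → ℂ × ℂ → ℂ × ℂ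
  | [] => fun p => p
  | a :: w => fun p => gU a (wU w p)

theorem wU_mem (w : List (Fin 5)) {p : ℂ × ℂ} (hp : p ∈ U0) : wU w p ∈ U0 := by
  induction w with
  | nil => exact hp
  | cons a w ih => exact gU_mem a ih

theorem wU_append (w w' : List (Fin 5)) (p : ℂ × ℂ) : wU (w ++ w') p = wU w (wU w' p) := by
  induction w with
  | nil => rfl
  | cons a w ih => simp only [List.cons_append, wU, ih]

theorem wU_reverse (w : List (Fin 5)) {p : ℂ × ℂ} (hp : p ∈ U0) : wU w.reverse (wU w p) = p := by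
  induction w generalizing p with
  | nil => rfl
  | cons a w ih =>
    rw [List.reverse_cons, wU_append]
    simp only [wU]
    rw [gU_gU a (wU_mem w hp), ih hp]

theorem wU_reverse' (w : List (Fin 5)) {p : ℂ × ℂ} (hp : p ∈ U0) : wU w (wU w.reverse p) = p := by
  have := wU_reverse w.reverse hp
  rwa [List.reverse_reverse] at this

theorem wact_kap0 (w : List (Fin 5)) {p : ℂ × ℂ} (hp : p ∈ U0) :
    wact w (kap0 p) = kap0 (wU w p) := by
  induction w with
  | nil => rfl
  | cons a w ih => rw [wact_cons, ih, act_kap0 a (wU_mem w hp)]; rfl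

/-- `M̄_{0,5}` in `(P^1)^5`. -/
def Yset : Set (Fin 5 → P1) := closure (kap0 '' U0)

theorem isClosed_Yset : IsClosed Yset := isClosed_closure

theorem wact_image (w : List (Fin 5)) : wact w '' (kap0 '' U0) = kap0 '' U0 := by
  ext y
  constructor
  · rintro ⟨_, ⟨p, hp, rfl⟩, rfl⟩
    exact ⟨wU w p, wU_mem w hp, (wact_kap0 w hp).symm⟩
  · rintro ⟨p, hp, rfl⟩
    refine ⟨kap0 (wU w.reverse p), ⟨_, wU_mem _ hp, rfl⟩, ?_⟩
    rw [wact_kap0 w (wU_mem _ hp), wU_reverse' w hp]

theorem wact_Yset (w : List (Fin 5)) : wact w '' Yset = Yset := by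
  have := (whomeo w).image_closure (kap0 '' U0)
  change wact w '' closure (kap0 '' U0) = closure (wact w '' (kap0 '' U0)) at this
  rw [Yset, this, wact_image]

theorem wact_mem {w : List (Fin 5)} {y : Fin 5 → P1} (hy : y ∈ Yset) : wact w y ∈ Yset := by
  rw [← wact_Yset w]; exact mem_image_of_mem _ hy

/-- the concrete compact surface. -/
abbrev Y : Type := Yset

instance : CompactSpace Y := isCompact_iff_compactSpace.1 isClosed_Yset.isCompact

theorem continuousOn_cc (i : Fin 5) : ContinuousOn (fun p : ℂ × ℂ => cc p i) Om := by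
  have h : ∀ p ∈ Om, (1 - p.1 * p.2 : ℂ) ≠ 0 := fun p hp => hp.2.2
  fin_cases i
  · exact ContinuousOn.div (by fun_prop) (by fun_prop) h
  · exact continuous_snd.continuousOn
  · exact (continuous_fst.mul continuous_snd).continuousOn
  · exact continuous_fst.continuousOn
  · exact ContinuousOn.div (by fun_prop) (by fun_prop) h

theorem continuousOn_kap0 : ContinuousOn kap0 Om :=
  continuousOn_pi.2 fun i => OnePoint.continuous_coe.comp_continuousOn (continuousOn_cc i)

theorem Om_sub_closure : Om ⊆ closure U0 := by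
  have hd : Dense ({u : ℂ | u ≠ 0} ×ˢ {u : ℂ | u ≠ 0}) :=
    (dense_compl_singleton (0 : ℂ)).prod (dense_compl_singleton (0 : ℂ))
  refine (hd.open_subset_closure_inter isOpen_Om).trans (closure_mono ?_)
  rintro p ⟨⟨h1, h2, h3⟩, h4, h5⟩
  exact ⟨h4, h5, h1, h2, h3⟩

theorem kap0_mem {p : ℂ × ℂ} (hp : p ∈ Om) : kap0 p ∈ Yset :=
  ((continuousOn_kap0 p hp).mono U0_sub).mem_closure_image (Om_sub_closure hp)

/-- the finite part. -/
def toC (z : P1) : ℂ := z.elim 0 (fun w => w)
@[simp] theorem toC_coe (z : ℂ) : toC (z : P1) = z := rfl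
theorem coe_toC {z : P1} (hz : z ≠ ∞) : ((toC z : ℂ) : P1) = z := by
  induction z using OnePoint.rec with
  | infty => exact absurd rfl hz
  | coe z => rfl
theorem continuousAt_toC {z : P1} (hz : z ≠ ∞) : ContinuousAt toC z := by
  induction z using OnePoint.rec with
  | infty => exact absurd rfl hz
  | coe z =>
    rw [OnePoint.continuousAt_coe]
    exact continuousAt_id

/-- the open set of `(P^1)^5` cut out by the node chart. -/
def V0 : Set (Fin 5 → P1) :=
  {y | y 1 ≠ ∞ ∧ y 3 ≠ ∞ ∧ y 3 ≠ ((1 : ℂ) : P1) ∧ y 1 ≠ ((1 : ℂ) : P1) ∧ y 2 ≠ ((1 : ℂ) : P1)}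

theorem isOpen_V0 : IsOpen V0 := by
  refine IsOpen.inter ?_ (IsOpen.inter ?_ (IsOpen.inter ?_ (IsOpen.inter ?_ ?_))) <;>
  exact isOpen_ne_fun (continuous_apply _) continuous_const

theorem kap0_mem_V0 {p : ℂ × ℂ} (hp : p ∈ Om) : kap0 p ∈ V0 := by
  obtain ⟨h1, h2, h3⟩ := hp
  refine ⟨OnePoint.coe_ne_infty _, OnePoint.coe_ne_infty _, ?_, ?_, ?_⟩ <;>
    · simp only [kap0, ne_eq, OnePoint.coe_eq_coe]
      intro h
      simp [cc] at h
      first
        | exact h1 (by rw [h]; ring)
        | exact h2 (by rw [h]; ring)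
        | exact h3 (by rw [h]; ring)

/-- coordinates. -/
def unk (y : Fin 5 → P1) : ℂ × ℂ := (toC (y 3), toC (y 1))

@[simp] theorem unk_kap0 (p : ℂ × ℂ) : unk (kap0 p) = p := rfl

theorem continuousOn_unk : ContinuousOn unk V0 := by
  intro y hy
  refine ContinuousAt.continuousWithinAt ?_
  refine ContinuousAt.prodMk ?_ ?_
  · exact ContinuousAt.comp (x := y) (f := fun y : Fin 5 → P1 => y 3) (g := toC)
      (continuousAt_toC hy.2.1) (continuous_apply 3).continuousAt
  · exact ContinuousAt.comp (x := y) (f := fun y : Fin 5 → P1 => y 1) (g := toC)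
      (continuousAt_toC hy.1) (continuous_apply 1).continuousAt

theorem Y_V0 {y : Fin 5 → P1} (hy : y ∈ Yset) (hV : y ∈ V0) : unk y ∈ Om ∧ kap0 (unk y) = y := by
  set F : Filter (ℂ × ℂ) := comap kap0 (𝓝 y) ⊓ 𝓟 U0 with hF
  have hne : F.NeBot := by
    have h1 : ClusterPt y (𝓟 (kap0 '' U0)) := mem_closure_iff_clusterPt.1 hy
    have h2 : (𝓝 y ⊓ 𝓟 (kap0 '' U0)).NeBot := h1
    rw [← map_principal, ← Filter.push_pull'] at h2
    exact (Filter.map_neBot_iff _).1 h2
  have hk : Tendsto kap0 F (𝓝 y) := tendsto_inf_left tendsto_comap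
  have hu : Tendsto (fun p : ℂ × ℂ => p) F (𝓝 (unk y)) := by
    have h1 : ContinuousAt unk y := by
      have := continuousOn_unk y hV
      exact this.continuousAt (isOpen_V0.mem_nhds hV)
    exact h1.tendsto.comp hk
  have h3 : Tendsto (fun p : ℂ × ℂ => ((p.1 * p.2 : ℂ) : P1)) F
      (𝓝 (((unk y).1 * (unk y).2 : ℂ) : P1)) := by
    refine (OnePoint.continuous_coe.tendsto _).comp ?_
    exact ((continuous_fst.mul continuous_snd).tendsto (unk y)).comp hu
  have h4 : y 2 = (((unk y).1 * (unk y).2 : ℂ) : P1) :=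
    tendsto_nhds_unique (((continuous_apply (2 : Fin 5)).tendsto y).comp hk) h3
  have hOm : unk y ∈ Om := by
    obtain ⟨g1, g2, g3, g4, g5⟩ := hV
    have c1 : (((unk y).2 : ℂ) : P1) = y 1 := coe_toC g1
    have c3 : (((unk y).1 : ℂ) : P1) = y 3 := coe_toC g2
    refine ⟨fun h => g3 ?_, fun h => g4 ?_, fun h => g5 ?_⟩
    · rw [← c3, (sub_eq_zero.1 h).symm]
    · rw [← c1, (sub_eq_zero.1 h).symm]
    · rw [h4, (sub_eq_zero.1 h).symm]
  refine ⟨hOm, ?_⟩
  have h5 : Tendsto kap0 F (𝓝 (kap0 (unk y))) :=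
    (continuousOn_kap0.continuousAt (isOpen_Om.mem_nhds hOm)).tendsto.comp hu
  exact tendsto_nhds_unique h5 hk

/-- the base point of `M_{0,5}`. -/
theorem two_mem : ((2 : ℂ), (3 : ℂ)) ∈ U0 := by
  refine ⟨?_, ?_, ?_, ?_, ?_⟩ <;> norm_num

/-- the node chart of the word `w` (total function; meaningful on `Om`). -/
def kap (w : List (Fin 5)) (p : ℂ × ℂ) : Y :=
  open Classical in
  if h : p ∈ Om then ⟨wact w (kap0 p), wact_mem (kap0_mem h)⟩
  else ⟨kap0 (2, 3), kap0_mem (U0_sub two_mem)⟩

theorem kap_val (w : List (Fin 5)) {p : ℂ × ℂ} (hp : p ∈ Om) :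
    (kap w p : Fin 5 → P1) = wact w (kap0 p) := by
  simp [kap, hp]

/-- the inverse of the node chart. -/
def unkap (w : List (Fin 5)) (y : Y) : ℂ × ℂ := unk (wact w.reverse y)

/-- the node charts: open partial homeomorphisms `C × C ⊇ Om ≃ open subset of Y`. -/
def chart (w : List (Fin 5)) : OpenPartialHomeomorph (ℂ × ℂ) Y where
  toFun := kap w
  invFun := unkap w
  source := Om
  target := {y : Y | wact w.reverse y ∈ V0}
  map_source' p hp := by
    change wact w.reverse (kap w p) ∈ V0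
    rw [kap_val w hp, wact_reverse]
    exact kap0_mem_V0 hp
  map_target' y hy := (Y_V0 (wact_mem y.2) hy).1
  left_inv' p hp := by
    simp only [unkap]
    rw [kap_val w hp, wact_reverse, unk_kap0]
  right_inv' y hy := by
    obtain ⟨h1, h2⟩ := Y_V0 (wact_mem (w := w.reverse) y.2) hy
    apply Subtype.ext
    rw [kap_val w (show unkap w y ∈ Om from h1)]
    simp only [unkap]
    rw [h2, wact_reverse']
  open_source := isOpen_Om
  open_target := isOpen_V0.preimage ((continuous_wact _).comp continuous_subtype_val)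
  continuousOn_toFun := by
    rw [continuousOn_iff_continuous_domRestrict, continuous_induced_rng]
    have : Continuous (Om.domRestrict fun p => wact w (kap0 p)) :=
      continuousOn_iff_continuous_domRestrict.1
        ((continuous_wact w).comp_continuousOn continuousOn_kap0)
    refine this.congr ?_
    rintro ⟨p, hp⟩
    simp [Set.domRestrict, kap_val w hp]
  continuousOn_invFun := by
    refine continuousOn_unk.comp
      ((continuous_wact _).comp continuous_subtype_val).continuousOn ?_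
    intro y hy
    exact hy

@[simp] theorem chart_source (w : List (Fin 5)) : (chart w).source = Om := rfl
@[simp] theorem chart_coe (w : List (Fin 5)) : (chart w : ℂ × ℂ → Y) = kap w := rfl
@[simp] theorem chart_symm_coe (w : List (Fin 5)) :
    ((chart w).symm : Y → ℂ × ℂ) = unkap w := rfl

theorem kap_injOn (w : List (Fin 5)) : InjOn (kap w) Om := (chart w).injOn

/-- On `M_{0,5}` all the charts are the same up to the action of the word. -/
theorem kap_U0 (w : List (Fin 5)) {p : ℂ × ℂ} (hp : p ∈ U0) : kap w p = kap [] (wU w p) := by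
  apply Subtype.ext
  rw [kap_val w (U0_sub hp), kap_val [] (U0_sub (wU_mem w hp)), wact_kap0 w hp]
  rfl

theorem kap_image_U0 (w : List (Fin 5)) : kap w '' U0 = kap [] '' U0 := by
  ext y
  constructor
  · rintro ⟨p, hp, rfl⟩
    exact ⟨_, wU_mem w hp, (kap_U0 w hp).symm⟩
  · rintro ⟨p, hp, rfl⟩
    refine ⟨_, wU_mem w.reverse hp, ?_⟩
    rw [kap_U0 w (wU_mem _ hp), wU_reverse' w hp]

/-- the open dense subset `M_{0,5}` of `Y`. -/
def UY : Set Y := kap [] '' U0

theorem isOpen_UY : IsOpen UY :=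
  (chart []).isOpen_image_of_subset_source isOpen_U0 U0_sub

theorem dense_UY : Dense UY := by
  intro y
  rw [closure_subtype]
  have h : ((↑) : Y → (Fin 5 → P1)) '' UY = kap0 '' U0 := by
    rw [UY, image_image]
    refine image_congr fun p hp => ?_
    rw [kap_val [] (U0_sub hp)]; rfl
  rw [h]
  exact y.2

/-- a point of a node chart is in `M_{0,5}` iff both coordinates are non-zero. -/
theorem kap_mem_UY (w : List (Fin 5)) {p : ℂ × ℂ} (hp : p ∈ Om) :
    kap w p ∈ UY ↔ p ∈ U0 := by
  constructor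
  · intro h
    rw [UY, ← kap_image_U0 w] at h
    obtain ⟨q, hq, hqp⟩ := h
    rwa [← kap_injOn w (U0_sub hq) hp hqp]
  · intro h
    rw [UY, ← kap_image_U0 w]
    exact mem_image_of_mem _ h

end

end Vale.Agent.P300.H242
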