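import Vale.Agent.P300.H242.YVal

/-!
# P300, block YBAR: the five coordinates `Y → P^1` on `U`; connectedness of `Y`
-/

open Set Topology

namespace Vale.Agent.P300.H242

noncomputable section

/-- The five coordinates of `Y` as functions on `U`. -/
def gC (j : Fin 5) (z : ℂ × ℂ) : ℂ := cc (z.1 / z.2, z.2) j

theorem crd_incY (j : Fin 5) (p : H142.U) : crd j (incY p) = ((gC j p.1 : ℂ) : OnePoint ℂ) :=
  crd_io p.2 j

theorem crd_yData_inc (j : Fin 5) (p : H142.U) :
    crd j (yData.inc p) = ((gC j p.1 : ℂ) : OnePoint ℂ) := crd_io p.2 j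

theorem gC_differentiableOn (j : Fin 5) : DifferentiableOn ℂ (gC j) H142.U := by
  intro z hz
  refine DifferentiableAt.differentiableWithinAt ?_
  have h := toUV_mem hz
  have h5 : 1 - z.1 / z.2 * z.2 ≠ 0 := h.2.2.2.2
  have hl : z.2 ≠ 0 := h.2.1
  have d1 : DifferentiableAt ℂ (fun z : ℂ × ℂ => z.1) z := differentiableAt_fst
  have d2 : DifferentiableAt ℂ (fun z : ℂ × ℂ => z.2) z := differentiableAt_snd
  have hdiv : ∀ {f g : ℂ × ℂ → ℂ}, DifferentiableAt ℂ f z → DifferentiableAt ℂ g z → g z ≠ 0 →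
      DifferentiableAt ℂ (fun z => f z / g z) z := by
    intro f g hf hg h0
    simp only [div_eq_mul_inv]
    exact hf.mul (hg.inv h0)
  have d3 : DifferentiableAt ℂ (fun z : ℂ × ℂ => z.1 / z.2) z := hdiv d1 d2 hl
  have d4 : DifferentiableAt ℂ (fun z : ℂ × ℂ => 1 - z.1 / z.2 * z.2) z :=
    (differentiableAt_const _).sub (d3.mul d2)
  have d5 : DifferentiableAt ℂ (fun z : ℂ × ℂ => 1 - z.2) z := (differentiableAt_const _).sub d2
  fin_cases j
  · exact hdiv d5 d4 h5
  · exact d2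
  · exact d3.mul d2
  · exact d3
  · exact hdiv (d3.mul d5) d4 h5

theorem gC_ne (j : Fin 5) {z : ℂ × ℂ} (hz : z ∈ H142.U) : gC j z ≠ 0 ∧ 1 - gC j z ≠ 0 :=
  cc_ne (toUV_mem hz) j

/-- The five coordinates separate the points of `Y`. -/
theorem crd_injective : Function.Injective fun y : Y => fun j => crd j y := fun _ _ h =>
  crd_ext fun j => congrFun h j

end

end Vale.Agent.P300.H242
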