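import Vale.Agent.P300.H242.Mob

/-!
# P300 / [YBAR] : cubical coordinates, the five cross ratios, and the action of `S_5`.
-/

open Topology Filter Set OnePoint

namespace Vale.Agent.P300.H242

noncomputable section

set_option linter.unusedSimpArgs false

/-- monomial transformations of `(P^1)^5`. -/
structure Wr where
  p : Fin 5 → Fin 5
  m : Fin 5 → M6

namespace Wr

theorem ext' {a b : Wr} (h : ∀ i, a.p i = b.p i ∧ a.m i = b.m i) : a = b := by
  obtain ⟨p, m⟩ := a
  obtain ⟨p', m'⟩ := b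
  have h1 : p = p' := funext fun i => (h i).1
  have h2 : m = m' := funext fun i => (h i).2
  subst h1 h2
  rfl

def act (a : Wr) (y : Fin 5 → P1) : Fin 5 → P1 := fun i => (a.m i).act (y (a.p i))

def one : Wr := ⟨fun i => i, fun _i => M6.e⟩

def mul (a b : Wr) : Wr := ⟨fun i => b.p (a.p i), fun i => M6.mul (a.m i) (b.m (a.p i))⟩

@[simp] theorem act_one (y : Fin 5 → P1) : act one y = y := rfl

theorem act_mul (a b : Wr) (y : Fin 5 → P1) : act (mul a b) y = act a (act b y) := by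
  funext i
  simp only [act, mul, M6.act_mul]

theorem continuous_act (a : Wr) : Continuous (act a) :=
  continuous_pi fun i => (M6.continuous_act _).comp (continuous_apply _)

end Wr

open M6 in
/-- the five generators (all involutions): the adjacent transpositions and the reversal. -/
def gen : Fin 5 → Wr
  | 0 => ⟨![1, 0, 2, 3, 4], ![s, s, m, m, m]⟩
  | 1 => ⟨![0, 2, 1, 3, 4], ![j, e, e, j, j]⟩
  | 2 => ⟨![0, 1, 3, 2, 4], ![m, j, e, e, m]⟩
  | 3 => ⟨![0, 1, 2, 4, 3], ![j, m, m, e, e]⟩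
  | 4 => ⟨![4, 3, 2, 1, 0], ![s, e, e, e, s]⟩

theorem gen_mul_gen (i : Fin 5) : Wr.mul (gen i) (gen i) = Wr.one := by
  fin_cases i <;> exact Wr.ext' (by decide)

/-- the element of a word. -/
def wr : List (Fin 5) → Wr
  | [] => Wr.one
  | a :: w => Wr.mul (gen a) (wr w)

theorem act_gen_gen (i : Fin 5) (y : Fin 5 → P1) : (gen i).act ((gen i).act y) = y := by
  rw [← Wr.act_mul, gen_mul_gen, Wr.act_one]

/-- the action of a word. -/
def wact (w : List (Fin 5)) (y : Fin 5 → P1) : Fin 5 → P1 := (wr w).act y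

@[simp] theorem wact_nil (y : Fin 5 → P1) : wact [] y = y := rfl
theorem wact_cons (a : Fin 5) (w : List (Fin 5)) (y : Fin 5 → P1) :
    wact (a :: w) y = (gen a).act (wact w y) := Wr.act_mul _ _ _
theorem wact_append (w w' : List (Fin 5)) (y : Fin 5 → P1) :
    wact (w ++ w') y = wact w (wact w' y) := by
  induction w with
  | nil => rfl
  | cons a w ih => rw [List.cons_append, wact_cons, wact_cons, ih]
theorem wact_reverse (w : List (Fin 5)) (y : Fin 5 → P1) :
    wact w.reverse (wact w y) = y := by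
  induction w generalizing y with
  | nil => rfl
  | cons a w ih =>
    rw [List.reverse_cons, wact_append, wact_cons, wact_cons, wact_nil, act_gen_gen, ih]
theorem wact_reverse' (w : List (Fin 5)) (y : Fin 5 → P1) :
    wact w (wact w.reverse y) = y := by
  have := wact_reverse w.reverse y
  rwa [List.reverse_reverse] at this
theorem continuous_wact (w : List (Fin 5)) : Continuous (wact w) := Wr.continuous_act _

/-- a word as a homeomorphism of `(P^1)^5`. -/
def whomeo (w : List (Fin 5)) : (Fin 5 → P1) ≃ₜ (Fin 5 → P1) where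
  toFun := wact w
  invFun := wact w.reverse
  left_inv := wact_reverse w
  right_inv := wact_reverse' w
  continuous_toFun := continuous_wact w
  continuous_invFun := continuous_wact _

/-- The node chart domain. -/
def Om : Set (ℂ × ℂ) := {p | 1 - p.1 ≠ 0 ∧ 1 - p.2 ≠ 0 ∧ 1 - p.1 * p.2 ≠ 0}

/-- `M_{0,5}` in cubical coordinates. -/
def U0 : Set (ℂ × ℂ) :=
  {p | p.1 ≠ 0 ∧ p.2 ≠ 0 ∧ 1 - p.1 ≠ 0 ∧ 1 - p.2 ≠ 0 ∧ 1 - p.1 * p.2 ≠ 0}

theorem U0_sub : U0 ⊆ Om := fun _ h => ⟨h.2.2.1, h.2.2.2.1, h.2.2.2.2⟩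

theorem isOpen_Om : IsOpen Om := by
  refine IsOpen.inter ?_ (IsOpen.inter ?_ ?_) <;>
  exact isOpen_ne_fun (by fun_prop) continuous_const

theorem isOpen_U0 : IsOpen U0 := by
  refine IsOpen.inter ?_ (IsOpen.inter ?_ (IsOpen.inter ?_ (IsOpen.inter ?_ ?_))) <;>
  exact isOpen_ne_fun (by fun_prop) continuous_const

/-- the five cross ratios in the node chart `(u,v)`. -/
def cc (p : ℂ × ℂ) : Fin 5 → ℂ :=
  ![(1 - p.2) / (1 - p.1 * p.2), p.2, p.1 * p.2, p.1, p.1 * (1 - p.2) / (1 - p.1 * p.2)]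

/-- the node chart into `(P^1)^5`. -/
def kap0 (p : ℂ × ℂ) : Fin 5 → P1 := fun i => ((cc p i : ℂ) : P1)

/-- the five involutions on `M_{0,5}`. -/
def gU : Fin 5 → ℂ × ℂ → ℂ × ℂ
  | 0 => fun p => (p.1 / (p.1 - 1), p.2 * (1 - p.1) / (1 - p.1 * p.2))
  | 1 => fun p => (p.1⁻¹, p.1 * p.2)
  | 2 => fun p => (p.1 * p.2, p.2⁻¹)
  | 3 => fun p => (p.1 * (1 - p.2) / (1 - p.1 * p.2), p.2 / (p.2 - 1))
  | 4 => fun p => (p.2, p.1)

theorem cc_ne {p : ℂ × ℂ} (hp : p ∈ U0) (i : Fin 5) : cc p i ≠ 0 ∧ 1 - cc p i ≠ 0 := by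
  obtain ⟨u, v⟩ := p
  obtain ⟨h1, h2, h3, h4, h5⟩ := hp
  simp only at h1 h2 h3 h4 h5
  have e0 : 1 - (1 - v) / (1 - u * v) = v * (1 - u) / (1 - u * v) := by
    rw [eq_div_iff h5, sub_mul, div_mul_cancel₀ _ h5]; ring
  have e4 : 1 - u * (1 - v) / (1 - u * v) = (1 - u) / (1 - u * v) := by
    rw [eq_div_iff h5, sub_mul, div_mul_cancel₀ _ h5]; ring
  fin_cases i <;> simp [cc, e0, e4, h1, h2, h3, h4, h5]

theorem gU_mem (i : Fin 5) {p : ℂ × ℂ} (hp : p ∈ U0) : gU i p ∈ U0 := by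
  obtain ⟨u, v⟩ := p
  obtain ⟨h1, h2, h3, h4, h5⟩ := hp
  simp only at h1 h2 h3 h4 h5
  have h3' : u - 1 ≠ 0 := fun h => h3 (by linear_combination -h)
  have h4' : v - 1 ≠ 0 := fun h => h4 (by linear_combination -h)
  have e0 : 1 - u / (u - 1) = -1 / (u - 1) := by field_simp; ring
  have e1 : 1 - v * (1 - u) / (1 - u * v) = (1 - v) / (1 - u * v) := by
    rw [eq_div_iff h5, sub_mul, div_mul_cancel₀ _ h5]; ring
  have e2 : 1 - u / (u - 1) * (v * (1 - u) / (1 - u * v)) = 1 / (1 - u * v) := by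
    field_simp; ring
  have e3 : 1 - u⁻¹ = (u - 1) / u := by field_simp
  have e4 : 1 - v⁻¹ = (v - 1) / v := by field_simp
  have e5 : 1 - u⁻¹ * (u * v) = 1 - v := by field_simp
  have e6 : 1 - u * v * v⁻¹ = 1 - u := by field_simp
  have e7 : 1 - u * (1 - v) / (1 - u * v) = (1 - u) / (1 - u * v) := by
    rw [eq_div_iff h5, sub_mul, div_mul_cancel₀ _ h5]; ring
  have e8 : 1 - v / (v - 1) = -1 / (v - 1) := by field_simp; ring
  have e9 : 1 - u * (1 - v) / (1 - u * v) * (v / (v - 1)) = 1 / (1 - u * v) := by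
    field_simp; ring
  have e10 : 1 - v * u = 1 - u * v := by ring
  fin_cases i <;>
    simp [gU, U0, e0, e1, e2, e3, e4, e5, e6, e7, e8, e9, e10, h1, h2, h3, h4, h5, h3', h4']

theorem gU_gU (i : Fin 5) {p : ℂ × ℂ} (hp : p ∈ U0) : gU i (gU i p) = p := by
  obtain ⟨u, v⟩ := p
  obtain ⟨h1, h2, h3, h4, h5⟩ := hp
  simp only at h1 h2 h3 h4 h5
  have h3' : u - 1 ≠ 0 := fun h => h3 (by linear_combination -h)
  have h4' : v - 1 ≠ 0 := fun h => h4 (by linear_combination -h)
  have h6 : u / (u - 1) - 1 ≠ 0 := by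
    have : u / (u - 1) - 1 = 1 / (u - 1) := by field_simp; ring
    rw [this]; exact one_div_ne_zero h3'
  have h7 : v / (v - 1) - 1 ≠ 0 := by
    have : v / (v - 1) - 1 = 1 / (v - 1) := by field_simp; ring
    rw [this]; exact one_div_ne_zero h4'
  have h8 : 1 - u / (u - 1) * (v * (1 - u) / (1 - u * v)) ≠ 0 := by
    have : 1 - u / (u - 1) * (v * (1 - u) / (1 - u * v)) = 1 / (1 - u * v) := by
      field_simp; ring
    rw [this]; exact one_div_ne_zero h5
  have h9 : 1 - u * (1 - v) / (1 - u * v) * (v / (v - 1)) ≠ 0 := by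
    have : 1 - u * (1 - v) / (1 - u * v) * (v / (v - 1)) = 1 / (1 - u * v) := by
      field_simp; ring
    rw [this]; exact one_div_ne_zero h5
  fin_cases i
  · simp only [gU, Prod.mk.injEq]
    refine ⟨?_, ?_⟩
    · rw [div_eq_iff h6]; field_simp; ring
    · have a1 : 1 - u / (u - 1) = -1 / (u - 1) := by field_simp; ring
      have a2 : 1 - u / (u - 1) * (v * (1 - u) / (1 - u * v)) = 1 / (1 - u * v) := by
        field_simp; ring
      rw [a1, a2, div_eq_iff (one_div_ne_zero h5), div_mul_div_comm, mul_one_div,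
        div_eq_div_iff (mul_ne_zero h5 h3') h5]
      ring
  · simp only [gU, Prod.mk.injEq]
    refine ⟨by simp, by field_simp⟩
  · simp only [gU, Prod.mk.injEq]
    refine ⟨by field_simp, by simp⟩
  · simp only [gU, Prod.mk.injEq]
    refine ⟨?_, ?_⟩
    · rw [div_eq_iff h9]; field_simp; ring
    · rw [div_eq_iff h7]; field_simp; ring
  · rfl

end

end Vale.Agent.P300.H242
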