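import Vale.Agent.P300.H242.YBar

/-!
# P300 / [YBAR] : compactness with explicit constants, and the 15 nodes.
-/

open Topology Filter Set OnePoint

namespace Vale.Agent.P300.H242

noncomputable section

set_option linter.unusedSimpArgs false

namespace M6

theorem actC_mul (a b : M6) {z : ℂ} (h0 : z ≠ 0) (h1 : 1 - z ≠ 0) :
    actC (mul a b) z = actC a (actC b z) := by
  have h := act_mul a b (z : P1)
  have hb := actC_ne b h0 h1
  rw [act_coe _ h0 h1, act_coe _ h0 h1, act_coe _ hb.1 hb.2, OnePoint.coe_eq_coe] at h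
  exact h

end M6

/-- the thirty cross ratios. -/
def RR (p : ℂ × ℂ) : Set ℂ := {z | ∃ (i : Fin 5) (a : M6), z = a.actC (cc p i)}

theorem RR_gU (k : Fin 5) {p : ℂ × ℂ} (hp : p ∈ U0) : RR (gU k p) ⊆ RR p := by
  rintro z ⟨i, a, rfl⟩
  have h := cc_ne hp ((gen k).p i)
  refine ⟨(gen k).p i, M6.mul a ((gen k).m i), ?_⟩
  rw [M6.actC_mul _ _ h.1 h.2, actC_cc k i hp]

theorem RR_wU (w : List (Fin 5)) {p : ℂ × ℂ} (hp : p ∈ U0) : RR (wU w p) ⊆ RR p := by
  induction w with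
  | nil => exact subset_rfl
  | cons a w ih => exact (RR_gU a (wU_mem w hp)).trans ih

/-- words for the six Moebius transformations of the cross ratio `cc _ 1`. -/
def oW : M6 → List (Fin 5)
  | .e => [] | .s => [2, 3, 2] | .j => [2] | .sj => [2, 3] | .js => [3, 2] | .m => [3]

/-- words moving the `i`-th cross ratio to position 1. -/
def bW : Fin 5 → List (Fin 5)
  | 0 => [0] | 1 => [] | 2 => [1] | 3 => [1, 2] | 4 => [1, 2, 3]

/-- the Moebius correction of `bW`. -/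
def bM : Fin 5 → M6
  | 0 => .s | 1 => .e | 2 => .e | 3 => .e | 4 => .e

/-- reading a cross ratio after a word. -/
theorem cc_wU (w : List (Fin 5)) (k : Fin 5) {p : ℂ × ℂ} (hp : p ∈ U0) :
    cc (wU w p) k = ((wr w).m k).actC (cc p ((wr w).p k)) := by
  have h1 := wact_kap0 w hp
  have h2 := congrFun h1 k
  simp only [wact, Wr.act, kap0] at h2
  rw [M6.act_coe _ (cc_ne hp _).1 (cc_ne hp _).2, OnePoint.coe_eq_coe] at h2
  exact h2.symm

theorem cc_word (a : M6) (i : Fin 5) {p : ℂ × ℂ} (hp : p ∈ U0) :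
    cc (wU (1 :: (oW a ++ bW i)) p) 2 = (M6.mul a (bM i)).actC (cc p i) := by
  rw [cc_wU _ _ hp]
  have h : (wr (1 :: (oW a ++ bW i))).p 2 = i ∧
      (wr (1 :: (oW a ++ bW i))).m 2 = M6.mul a (bM i) := by
    cases a <;> fin_cases i <;> decide
  rw [h.1, h.2]


/-- the compact box. -/
def KB : Set (ℂ × ℂ) := {p | ‖p.1‖ ≤ 1 ∧ ‖p.2‖ ≤ 1 ∧ 1 / 3 ≤ ‖1 - p.1‖ ∧ 1 / 2 ≤ ‖1 - p.2‖ ∧
  1 / 6 ≤ ‖1 - p.1 * p.2‖}

theorem KB_sub : KB ⊆ Om := by
  rintro p ⟨-, -, h3, h4, h5⟩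
  refine ⟨?_, ?_, ?_⟩ <;> intro h
  · rw [h, norm_zero] at h3; norm_num at h3
  · rw [h, norm_zero] at h4; norm_num at h4
  · rw [h, norm_zero] at h5; norm_num at h5

theorem isCompact_KB : IsCompact KB := by
  have h1 : IsCompact (Metric.closedBall (0 : ℂ) 1 ×ˢ Metric.closedBall (0 : ℂ) 1) :=
    (isCompact_closedBall _ _).prod (isCompact_closedBall _ _)
  refine h1.of_isClosed_subset ?_ ?_
  · refine IsClosed.inter ?_ (IsClosed.inter ?_ (IsClosed.inter ?_ (IsClosed.inter ?_ ?_)))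
    · exact isClosed_le (f := fun p : ℂ × ℂ => ‖p.1‖) (by fun_prop) continuous_const
    · exact isClosed_le (f := fun p : ℂ × ℂ => ‖p.2‖) (by fun_prop) continuous_const
    · exact isClosed_le (g := fun p : ℂ × ℂ => ‖1 - p.1‖) continuous_const (by fun_prop)
    · exact isClosed_le (g := fun p : ℂ × ℂ => ‖1 - p.2‖) continuous_const (by fun_prop)
    · exact isClosed_le (g := fun p : ℂ × ℂ => ‖1 - p.1 * p.2‖) continuous_const (by fun_prop)
  · rintro p ⟨h1, h2, -⟩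
    exact ⟨mem_closedBall_zero_iff.2 h1, mem_closedBall_zero_iff.2 h2⟩

theorem box_of_min {u v : ℂ} (hp : (u, v) ∈ U0) (hmin : ∀ z ∈ RR (u, v), ‖u * v‖ ≤ ‖z‖) :
    (u, v) ∈ KB ∨ gU 2 (gU 3 (u, v)) ∈ KB := by
  have hp' := hp
  obtain ⟨h1, h2, h3, h4, h5⟩ := hp'
  simp only at h1 h2 h3 h4 h5
  have g1 : ‖u * v‖ ≤ ‖v‖ := hmin _ ⟨1, .e, rfl⟩
  have g2 : ‖u * v‖ ≤ ‖1 - (1 - v) / (1 - u * v)‖ := hmin _ ⟨0, .s, rfl⟩
  have g3 : ‖u * v‖ ≤ ‖u‖ := hmin _ ⟨3, .e, rfl⟩
  have g4 : ‖u * v‖ ≤ ‖1 - u * v‖ := hmin _ ⟨2, .s, rfl⟩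
  have g5 : ‖u * v‖ ≤ ‖(u * v)⁻¹‖ := hmin _ ⟨2, .j, rfl⟩
  have pu : 0 < ‖u‖ := norm_pos_iff.2 h1
  have pv : 0 < ‖v‖ := norm_pos_iff.2 h2
  have px : 0 < ‖u * v‖ := norm_pos_iff.2 (mul_ne_zero h1 h2)
  have pw : 0 < ‖1 - u * v‖ := norm_pos_iff.2 h5
  have hv1 : ‖v‖ ≤ 1 := by
    rw [norm_mul] at g3
    nlinarith
  have hu1 : ‖u‖ ≤ 1 := by
    rw [norm_mul] at g1
    nlinarith
  have hx1 : ‖u * v‖ ≤ 1 := by
    rw [norm_mul]; nlinarith
  have hw1 : 1 - ‖u * v‖ ≤ ‖1 - u * v‖ := by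
    have := norm_sub_norm_le (1 : ℂ) (u * v)
    rwa [norm_one] at this
  have hw : 1 / 2 ≤ ‖1 - u * v‖ := by linarith
  have hw2 : ‖1 - u * v‖ ≤ 2 := by
    have := norm_sub_le (1 : ℂ) (u * v)
    rw [norm_one] at this
    linarith
  have e0 : 1 - (1 - v) / (1 - u * v) = v * (1 - u) / (1 - u * v) := by
    rw [eq_div_iff h5, sub_mul, div_mul_cancel₀ _ h5]; ring
  have g2' : ‖u‖ * ‖1 - u * v‖ ≤ ‖1 - u‖ := by
    rw [e0, norm_div, le_div_iff₀ pw, norm_mul, norm_mul] at g2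
    have : ‖v‖ * (‖u‖ * ‖1 - u * v‖) ≤ ‖v‖ * ‖1 - u‖ := by linarith
    exact le_of_mul_le_mul_left this pv
  have hu2 : 1 - ‖u‖ ≤ ‖1 - u‖ := by
    have := norm_sub_norm_le (1 : ℂ) u
    rwa [norm_one] at this
  have hu3 : 1 / 3 ≤ ‖1 - u‖ := by
    have : ‖u‖ * (1 / 2) ≤ ‖1 - u‖ := le_trans (mul_le_mul_of_nonneg_left hw pu.le) g2'
    linarith
  by_cases hv : 1 / 2 ≤ ‖1 - v‖
  · left
    exact ⟨hu1, hv1, hu3, hv, by linarith⟩
  · right
    push Not at hv
    have hv3 : 1 / 2 ≤ ‖v‖ := by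
      have := norm_sub_norm_le (1 : ℂ) (1 - v)
      rw [norm_one, show (1 : ℂ) - (1 - v) = v by ring] at this
      linarith
    have h6 : u * v - 1 ≠ 0 := fun h => h5 (by linear_combination -h)
    have hv1' : v - 1 ≠ 0 := fun h => h4 (by linear_combination -h)
    have hq : gU 2 (gU 3 (u, v)) = (u * v / (u * v - 1), (v - 1) / v) := by
      simp only [gU, Prod.mk.injEq]
      refine ⟨?_, by rw [inv_div]⟩
      rw [div_mul_div_comm, div_eq_div_iff (mul_ne_zero h5 hv1') h6]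
      ring
    have n1 : ‖u * v - 1‖ = ‖1 - u * v‖ := norm_sub_rev _ _
    have n2 : ‖v - 1‖ = ‖1 - v‖ := norm_sub_rev _ _
    have n3 : ‖u - 1‖ = ‖1 - u‖ := norm_sub_rev _ _
    rw [hq]
    refine ⟨?_, ?_, ?_, ?_, ?_⟩
    · simp only
      rw [norm_div, n1, div_le_one pw]; exact g4
    · simp only
      rw [norm_div, n2, div_le_one pv]; linarith
    · simp only
      have : 1 - u * v / (u * v - 1) = -1 / (u * v - 1) := by
        rw [eq_div_iff h6, sub_mul, div_mul_cancel₀ _ h6]; ring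
      rw [this, norm_div, n1, norm_neg, norm_one, div_le_div_iff₀ (by norm_num) pw]
      linarith
    · simp only
      have : 1 - (v - 1) / v = 1 / v := by field_simp; ring
      rw [this, norm_div, norm_one, div_le_div_iff₀ (by norm_num) pv]
      linarith
    · simp only
      have : 1 - u * v / (u * v - 1) * ((v - 1) / v) = (u - 1) / (u * v - 1) := by
        have e : u * v / (u * v - 1) * ((v - 1) / v) = u * (v - 1) / (u * v - 1) := by
          rw [div_mul_div_comm, div_eq_div_iff (mul_ne_zero h6 h2) h6]; ring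
        rw [e, eq_div_iff h6, sub_mul, div_mul_cancel₀ _ h6]; ring
      rw [this, norm_div, n1, n3, div_le_div_iff₀ (by norm_num) pw]
      linarith


/-- the fifteen node words. -/
def node : Fin 15 → List (Fin 5) :=
  ![[], [1], [2], [0, 1], [1, 2], [2, 1], [3, 2], [0, 1, 2], [0, 2, 1], [1, 2, 1], [1, 3, 2], [3, 2, 1], [0, 1, 2, 1], [0, 1, 3, 2], [0, 3, 2, 1]]

/-- the words used in the compactness argument. -/
def fW (a : M6) (i : Fin 5) (b : Bool) : List (Fin 5) :=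
  if b then 2 :: 3 :: 1 :: (oW a ++ bW i) else 1 :: (oW a ++ bW i)

/-- the node of a word of the compactness argument, and the symmetry of the node. -/
def nd : M6 → Fin 5 → Bool → Fin 15 × List (Fin 5)
  | .e, 0, false => (3, [])
  | .e, 0, true => (13, [])
  | .e, 1, false => (1, [])
  | .e, 1, true => (10, [])
  | .e, 2, false => (0, [])
  | .e, 2, true => (6, [])
  | .e, 3, false => (2, [])
  | .e, 3, true => (6, [3])
  | .e, 4, false => (6, [])
  | .e, 4, true => (2, [3])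
  | .s, 0, false => (14, [3])
  | .s, 0, true => (9, [0, 3, 4])
  | .s, 1, false => (11, [3])
  | .s, 1, true => (12, [0, 3, 4])
  | .s, 2, false => (12, [3, 4])
  | .s, 2, true => (11, [])
  | .s, 3, false => (7, [3, 4])
  | .s, 3, true => (11, [3])
  | .s, 4, false => (13, [3, 4])
  | .s, 4, true => (5, [3])
  | .j, 0, false => (8, [])
  | .j, 0, true => (10, [0, 3, 4])
  | .j, 1, false => (5, [])
  | .j, 1, true => (13, [0, 3, 4])
  | .j, 2, false => (9, [])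
  | .j, 2, true => (13, [3, 4])
  | .j, 3, false => (4, [])
  | .j, 3, true => (10, [3])
  | .j, 4, false => (10, [])
  | .j, 4, true => (4, [3])
  | .sj, 0, false => (14, [])
  | .sj, 0, true => (4, [0, 3, 4])
  | .sj, 1, false => (11, [])
  | .sj, 1, true => (7, [0, 3, 4])
  | .sj, 2, false => (12, [0, 3, 4])
  | .sj, 2, true => (7, [3, 4])
  | .sj, 3, false => (7, [0, 3, 4])
  | .sj, 3, true => (12, [3, 4])
  | .sj, 4, false => (13, [0, 3, 4])
  | .sj, 4, true => (9, [3])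
  | .js, 0, false => (8, [3])
  | .js, 0, true => (12, [])
  | .js, 1, false => (5, [3])
  | .js, 1, true => (9, [])
  | .js, 2, false => (9, [3])
  | .js, 2, true => (5, [])
  | .js, 3, false => (4, [3])
  | .js, 3, true => (1, [])
  | .js, 4, false => (10, [3])
  | .js, 4, true => (1, [3])
  | .m, 0, false => (3, [3])
  | .m, 0, true => (7, [])
  | .m, 1, false => (1, [3])
  | .m, 1, true => (4, [])
  | .m, 2, false => (0, [3])
  | .m, 2, true => (2, [])
  | .m, 3, false => (2, [3])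
  | .m, 3, true => (0, [])
  | .m, 4, false => (6, [3])
  | .m, 4, true => (0, [3])

theorem nd_spec (a : M6) (i : Fin 5) (b : Bool) :
    wr (fW a i b).reverse = wr (node (nd a i b).1 ++ (nd a i b).2) := by
  cases a <;> fin_cases i <;> cases b <;> exact Wr.ext' (by decide)

theorem nd_stab (a : M6) (i : Fin 5) (b : Bool) : ∀ k ∈ (nd a i b).2, k = 0 ∨ k = 3 ∨ k = 4 := by
  cases a <;> fin_cases i <;> cases b <;> decide

theorem exists_min (p : ℂ × ℂ) :
    ∃ (i : Fin 5) (a : M6), ∀ z ∈ RR p, ‖a.actC (cc p i)‖ ≤ ‖z‖ := by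
  let S : Finset (Fin 5 × M6) := Finset.univ ×ˢ {M6.e, M6.s, M6.j, M6.sj, M6.js, M6.m}
  have hS : ∀ x : Fin 5 × M6, x ∈ S := by
    rintro ⟨i, a⟩
    simp only [S, Finset.mem_product, Finset.mem_univ, true_and]
    cases a <;> decide
  obtain ⟨x, -, hx⟩ := S.exists_min_image (fun x => ‖x.2.actC (cc p x.1)‖) ⟨(0, M6.e), hS _⟩
  refine ⟨x.1, x.2, ?_⟩
  rintro z ⟨i, a, rfl⟩
  exact hx (i, a) (hS _)

theorem exists_box {p : ℂ × ℂ} (hp : p ∈ U0) :
    ∃ (a : M6) (i : Fin 5) (b : Bool), wU (fW a i b) p ∈ KB := by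
  obtain ⟨i, a, h⟩ := exists_min p
  set w := 1 :: (oW (M6.mul a (bM i)) ++ bW i) with hw
  have hm : M6.mul (M6.mul a (bM i)) (bM i) = a := by
    cases a <;> fin_cases i <;> rfl
  have hc : cc (wU w p) 2 = a.actC (cc p i) := by
    rw [hw, cc_word _ _ hp, hm]
  have hq : wU w p ∈ U0 := wU_mem w hp
  have key := box_of_min (u := (wU w p).1) (v := (wU w p).2) hq (by
    intro z hz
    have hz' : z ∈ RR p := RR_wU w hp hz
    have : cc (wU w p) 2 = (wU w p).1 * (wU w p).2 := rfl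
    rw [← this, hc]
    exact h z hz')
  rcases key with key | key
  · exact ⟨M6.mul a (bM i), i, false, key⟩
  · exact ⟨M6.mul a (bM i), i, true, key⟩

/-- density argument on `Om`. -/
theorem eq_of_eqOn {X : Type*} [TopologicalSpace X] [T2Space X] {f g : ℂ × ℂ → X}
    (hf : ContinuousOn f Om) (hg : ContinuousOn g Om) (h : ∀ p ∈ U0, f p = g p)
    {p : ℂ × ℂ} (hp : p ∈ Om) : f p = g p := by
  have hne : (𝓝[U0] p).NeBot := mem_closure_iff_nhdsWithin_neBot.1 (Om_sub_closure hp)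
  have h1 : Tendsto f (𝓝[U0] p) (𝓝 (f p)) := (hf p hp).mono U0_sub
  have h2 : Tendsto g (𝓝[U0] p) (𝓝 (g p)) := (hg p hp).mono U0_sub
  refine tendsto_nhds_unique h1 (h2.congr' ?_)
  filter_upwards [self_mem_nhdsWithin] with q hq
  exact (h q hq).symm

theorem gU_Om {k : Fin 5} (hk : k = 0 ∨ k = 3 ∨ k = 4) {p : ℂ × ℂ} (hp : p ∈ Om) :
    gU k p ∈ Om := by
  obtain ⟨u, v⟩ := p
  obtain ⟨h3, h4, h5⟩ := hp
  simp only at h3 h4 h5
  have h3' : u - 1 ≠ 0 := fun h => h3 (by linear_combination -h)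
  have h4' : v - 1 ≠ 0 := fun h => h4 (by linear_combination -h)
  have e0 : 1 - u / (u - 1) = -1 / (u - 1) := by field_simp; ring
  have e1 : 1 - v * (1 - u) / (1 - u * v) = (1 - v) / (1 - u * v) := by
    rw [eq_div_iff h5, sub_mul, div_mul_cancel₀ _ h5]; ring
  have e2 : 1 - u / (u - 1) * (v * (1 - u) / (1 - u * v)) = 1 / (1 - u * v) := by
    field_simp; ring
  have e7 : 1 - u * (1 - v) / (1 - u * v) = (1 - u) / (1 - u * v) := by
    rw [eq_div_iff h5, sub_mul, div_mul_cancel₀ _ h5]; ring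
  have e8 : 1 - v / (v - 1) = -1 / (v - 1) := by field_simp; ring
  have e9 : 1 - u * (1 - v) / (1 - u * v) * (v / (v - 1)) = 1 / (1 - u * v) := by
    field_simp; ring
  have e10 : 1 - v * u = 1 - u * v := by ring
  rcases hk with rfl | rfl | rfl <;>
    simp [gU, Om, e0, e1, e2, e7, e8, e9, e10, h3, h4, h5, h3', h4']

theorem continuousOn_gU {k : Fin 5} (hk : k = 0 ∨ k = 3 ∨ k = 4) : ContinuousOn (gU k) Om := by
  have h3 : ∀ p ∈ Om, (p.1 - 1 : ℂ) ≠ 0 := fun p hp h => hp.1 (by linear_combination -h)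
  have h4 : ∀ p ∈ Om, (p.2 - 1 : ℂ) ≠ 0 := fun p hp h => hp.2.1 (by linear_combination -h)
  have h5 : ∀ p ∈ Om, (1 - p.1 * p.2 : ℂ) ≠ 0 := fun p hp => hp.2.2
  rcases hk with rfl | rfl | rfl
  · exact ContinuousOn.prodMk (ContinuousOn.div (by fun_prop) (by fun_prop) h3)
      (ContinuousOn.div (by fun_prop) (by fun_prop) h5)
  · exact ContinuousOn.prodMk (ContinuousOn.div (by fun_prop) (by fun_prop) h5)
      (ContinuousOn.div (by fun_prop) (by fun_prop) h4)
  · exact (continuous_snd.prodMk continuous_fst).continuousOn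

theorem act_kap0_Om {k : Fin 5} (hk : k = 0 ∨ k = 3 ∨ k = 4) {p : ℂ × ℂ} (hp : p ∈ Om) :
    (gen k).act (kap0 p) = kap0 (gU k p) :=
  eq_of_eqOn (f := fun p => (gen k).act (kap0 p)) (g := fun p => kap0 (gU k p))
    ((Wr.continuous_act _).comp_continuousOn continuousOn_kap0)
    (continuousOn_kap0.comp (continuousOn_gU hk) fun _ h => gU_Om hk h)
    (fun _ h => act_kap0 k h) hp

theorem wU_Om {s : List (Fin 5)} (hs : ∀ k ∈ s, k = 0 ∨ k = 3 ∨ k = 4) {p : ℂ × ℂ}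
    (hp : p ∈ Om) : wU s p ∈ Om := by
  induction s with
  | nil => exact hp
  | cons a s ih =>
    exact gU_Om (hs a (by simp)) (ih fun k hk => hs k (List.mem_cons_of_mem _ hk))

theorem continuousOn_wU {s : List (Fin 5)} (hs : ∀ k ∈ s, k = 0 ∨ k = 3 ∨ k = 4) :
    ContinuousOn (wU s) Om := by
  induction s with
  | nil => exact continuousOn_id
  | cons a s ih =>
    exact (continuousOn_gU (hs a (by simp))).comp
      (ih fun k hk => hs k (List.mem_cons_of_mem _ hk))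
      fun _ h => wU_Om (fun k hk => hs k (List.mem_cons_of_mem _ hk)) h

theorem wact_kap0_Om {s : List (Fin 5)} (hs : ∀ k ∈ s, k = 0 ∨ k = 3 ∨ k = 4) {p : ℂ × ℂ}
    (hp : p ∈ Om) : wact s (kap0 p) = kap0 (wU s p) := by
  induction s with
  | nil => rfl
  | cons a s ih =>
    have hs' : ∀ k ∈ s, k = 0 ∨ k = 3 ∨ k = 4 := fun k hk => hs k (List.mem_cons_of_mem _ hk)
    rw [wact_cons, ih hs', act_kap0_Om (hs a (by simp)) (wU_Om hs' hp)]
    rfl

/-- the symmetries of a node only reparametrise its chart. -/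
theorem kap_append_stab (w : List (Fin 5)) {s : List (Fin 5)}
    (hs : ∀ k ∈ s, k = 0 ∨ k = 3 ∨ k = 4) {p : ℂ × ℂ} (hp : p ∈ Om) :
    kap (w ++ s) p = kap w (wU s p) := by
  apply Subtype.ext
  rw [kap_val _ hp, kap_val _ (wU_Om hs hp), wact_append, wact_kap0_Om hs hp]

theorem kap_congr_wr {w w' : List (Fin 5)} (h : wr w = wr w') (p : ℂ × ℂ) : kap w p = kap w' p := by
  by_cases hp : p ∈ Om
  · apply Subtype.ext
    rw [kap_val _ hp, kap_val _ hp]
    simp only [wact, h]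
  · simp [kap, hp]

/-- the eight symmetries of a node. -/
def D8 : List (List (Fin 5)) := [[], [0], [3], [4], [0, 3], [0, 4], [3, 4], [0, 3, 4]]

theorem D8_stab : ∀ s ∈ D8, ∀ k ∈ s, k = 0 ∨ k = 3 ∨ k = 4 := by decide

theorem nd_D8 (a : M6) (i : Fin 5) (b : Bool) : (nd a i b).2 ∈ D8 := by
  cases a <;> fin_cases i <;> cases b <;> decide

/-- the compact subset of `Om` which is enough for all the 15 charts. -/
def KK : Set (ℂ × ℂ) := ⋃ s ∈ D8, wU s '' KB

theorem KK_sub : KK ⊆ Om := by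
  refine iUnion₂_subset fun s hs => ?_
  rintro _ ⟨p, hp, rfl⟩
  exact wU_Om (D8_stab s hs) (KB_sub hp)

theorem isCompact_KK : IsCompact KK := by
  have : KK = ⋃ s ∈ D8.toFinset, wU s '' KB := by simp [KK]
  rw [this]
  refine D8.toFinset.isCompact_biUnion fun s hs => ?_
  exact isCompact_KB.image_of_continuousOn
    ((continuousOn_wU (D8_stab s (List.mem_toFinset.1 hs))).mono KB_sub)

theorem cover_U0 {p : ℂ × ℂ} (hp : p ∈ U0) : ∃ ν : Fin 15, ∃ q ∈ KK, kap (node ν) q = kap [] p := by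
  obtain ⟨a, i, b, h⟩ := exists_box hp
  refine ⟨(nd a i b).1, wU (nd a i b).2 (wU (fW a i b) p), ?_, ?_⟩
  · exact mem_iUnion₂.2 ⟨_, nd_D8 a i b, mem_image_of_mem _ h⟩
  · rw [← kap_append_stab _ (nd_stab a i b) (KB_sub h), ← kap_congr_wr (nd_spec a i b),
      kap_U0 _ (wU_mem _ hp), wU_reverse _ hp]

/-- **every point of `Y` is in one of the 15 node charts, with coordinates in the compact `KK`.** -/
theorem cover (y : Y) : ∃ ν : Fin 15, ∃ q ∈ KK, kap (node ν) q = y := by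
  have hc : IsCompact (⋃ ν : Fin 15, kap (node ν) '' KK) :=
    isCompact_iUnion fun ν => isCompact_KK.image_of_continuousOn
      ((chart (node ν)).continuousOn_toFun.mono KK_sub)
  have h1 : UY ⊆ ⋃ ν : Fin 15, kap (node ν) '' KK := by
    rintro _ ⟨p, hp, rfl⟩
    obtain ⟨ν, q, hq, h⟩ := cover_U0 hp
    exact mem_iUnion.2 ⟨ν, q, hq, h⟩
  have h2 : closure UY ⊆ ⋃ ν : Fin 15, kap (node ν) '' KK :=
    closure_minimal h1 hc.isClosed
  obtain ⟨ν, q, hq, h⟩ := mem_iUnion.1 (h2 (dense_UY y))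
  exact ⟨ν, q, hq, h⟩

end

end Vale.Agent.P300.H242
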