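import Vale.Agent.P300.H242.Act

/-!
# P300 / [YBAR] : equivariance of the chart on `M_{0,5}`.
-/

open Topology Filter Set OnePoint

namespace Vale.Agent.P300.H242

noncomputable section

set_option linter.unusedSimpArgs false

theorem actC_cc (i k : Fin 5) {p : ℂ × ℂ} (hp : p ∈ U0) :
    ((gen i).m k).actC (cc p ((gen i).p k)) = cc (gU i p) k := by
  obtain ⟨u, v⟩ := p
  obtain ⟨h1, h2, h3, h4, h5⟩ := hp
  simp only at h1 h2 h3 h4 h5
  have h3' : u - 1 ≠ 0 := fun h => h3 (by linear_combination -h)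
  have h4' : v - 1 ≠ 0 := fun h => h4 (by linear_combination -h)
  have e0 : 1 - (1 - v) / (1 - u * v) = v * (1 - u) / (1 - u * v) := by
    rw [eq_div_iff h5, sub_mul, div_mul_cancel₀ _ h5]; ring
  have e1 : 1 - v * (1 - u) / (1 - u * v) = (1 - v) / (1 - u * v) := by
    rw [eq_div_iff h5, sub_mul, div_mul_cancel₀ _ h5]; ring
  have e2 : 1 - u / (u - 1) * (v * (1 - u) / (1 - u * v)) = 1 / (1 - u * v) := by
    field_simp; ring
  have e4 : 1 - u * (1 - v) / (1 - u * v) = (1 - u) / (1 - u * v) := by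
    rw [eq_div_iff h5, sub_mul, div_mul_cancel₀ _ h5]; ring
  have e5 : 1 - u⁻¹ * (u * v) = 1 - v := by field_simp
  have e6 : 1 - u * v * v⁻¹ = 1 - u := by field_simp
  have e7 : 1 - v⁻¹ = (v - 1) / v := by field_simp
  have e8 : 1 - v / (v - 1) = -1 / (v - 1) := by field_simp; ring
  have e9 : 1 - u * (1 - v) / (1 - u * v) * (v / (v - 1)) = 1 / (1 - u * v) := by
    field_simp; ring
  have e10 : 1 - u / (u - 1) = -1 / (u - 1) := by field_simp; ring
  have e11 : 1 - (1 - u)⁻¹ = u / (u - 1) := by field_simp; ring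
  have e12 : 1 - (1 - v)⁻¹ = v / (v - 1) := by field_simp; ring
  have e13 : 1 - (1 - u * v)⁻¹ = - (u * v) / (1 - u * v) := by
    rw [eq_div_iff h5, sub_mul, inv_mul_cancel₀ h5]; ring
  have e14 : 1 - v * u = 1 - u * v := by ring
  fin_cases i <;> fin_cases k <;>
    simp [gen, cc, gU, M6.actC, e0, e1, e2, e4, e5, e6, e7, e8, e9, e10, e11, e12, e13, e14]
  · rw [div_mul_cancel₀ _ h5]
  · rw [div_mul_div_comm, div_eq_div_iff h5 (mul_ne_zero h3' h5)]; ring
  · rw [mul_assoc, div_mul_cancel₀ _ h5]; field_simp; ring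
  · field_simp
  · field_simp
  · field_simp; ring
  · field_simp
  · field_simp; ring
  · rw [div_mul_eq_mul_div, div_eq_div_iff h4 h4']; ring
  · rw [div_mul_div_comm, div_eq_div_iff h5 (mul_ne_zero h5 h4')]; ring
  · rw [mul_right_comm, div_mul_cancel₀ _ h5]; field_simp; ring
  · ring

end

end Vale.Agent.P300.H242
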