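import Mathlib

/-!
# P300 / [YBAR] : the anharmonic group acting on `OnePoint ℂ` by homeomorphisms.
`sub1 : z ↦ 1 - z`, `inv1 : z ↦ 1 / z` (with `0 ↔ ∞`), and the six elements `M6`.
-/

open Topology Filter Set OnePoint

namespace Vale.Agent.P300.H242

noncomputable section

abbrev P1 := OnePoint ℂ

/-- `z ↦ 1 - z` as a homeomorphism of `ℂ`. -/
def sub1C : ℂ ≃ₜ ℂ where
  toFun z := 1 - z
  invFun z := 1 - z
  left_inv z := by ring
  right_inv z := by ring
  continuous_toFun := by fun_prop
  continuous_invFun := by fun_prop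

/-- `z ↦ 1 - z` on `OnePoint ℂ`. -/
def sub1 : P1 → P1 := fun z => OnePoint.map (fun w : ℂ => 1 - w) z

@[simp] theorem sub1_coe (z : ℂ) : sub1 (z : P1) = ((1 - z : ℂ) : P1) := rfl
@[simp] theorem sub1_infty : sub1 (∞ : P1) = ∞ := rfl
@[simp] theorem sub1_sub1 (z : P1) : sub1 (sub1 z) = z := by
  induction z using OnePoint.rec with
  | infty => simp
  | coe z => simp

theorem continuous_sub1 : Continuous sub1 :=
  (sub1C.onePointCongr).continuous

/-- `z ↦ 1 / z` on `OnePoint ℂ`. -/
def inv1 (z : P1) : P1 := z.elim ((0 : ℂ) : P1) (fun w => if w = 0 then ∞ else ((w⁻¹ : ℂ) : P1))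

@[simp] theorem inv1_infty : inv1 (∞ : P1) = ((0 : ℂ) : P1) := rfl
@[simp] theorem inv1_zero : inv1 ((0 : ℂ) : P1) = ∞ := by simp [inv1]
theorem inv1_coe {z : ℂ} (hz : z ≠ 0) : inv1 (z : P1) = ((z⁻¹ : ℂ) : P1) := by
  simp [inv1, hz]
@[simp] theorem inv1_inv1 (z : P1) : inv1 (inv1 z) = z := by
  induction z using OnePoint.rec with
  | infty => simp
  | coe z =>
    by_cases hz : z = 0
    · subst hz; simp
    · rw [inv1_coe hz, inv1_coe (inv_ne_zero hz), inv_inv]

theorem continuous_inv1 : Continuous inv1 := by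
  rw [continuous_iff_continuousAt]
  intro z
  induction z using OnePoint.rec with
  | infty =>
    rw [OnePoint.continuousAt_infty', inv1_infty, coclosedCompact_eq_cocompact]
    have h1 : Tendsto (fun w : ℂ => w⁻¹) (cocompact ℂ) (𝓝 0) := by
      rw [← Metric.cobounded_eq_cocompact]
      exact tendsto_inv₀_cobounded
    have h2 : Tendsto (fun w : ℂ => ((w⁻¹ : ℂ) : P1)) (cocompact ℂ) (𝓝 ((0 : ℂ) : P1)) :=
      (OnePoint.continuous_coe.tendsto 0).comp h1
    refine h2.congr' ?_
    have : ∀ᶠ w : ℂ in cocompact ℂ, w ≠ 0 := by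
      rw [← Metric.cobounded_eq_cocompact]
      exact Bornology.eventually_ne_cobounded 0
    filter_upwards [this] with w hw
    simp [inv1_coe hw]
  | coe z =>
    rw [OnePoint.continuousAt_coe]
    by_cases hz : z = 0
    · subst hz
      change Tendsto (inv1 ∘ ((↑) : ℂ → P1)) (𝓝 0) (𝓝 (inv1 ((0 : ℂ) : P1)))
      rw [inv1_zero]
      have h0 : 𝓝 (0 : ℂ) = 𝓝[≠] 0 ⊔ pure 0 := by
        rw [nhdsNE_sup_pure]
      rw [h0, tendsto_sup]
      refine ⟨?_, ?_⟩
      · have h1 : Tendsto (fun w : ℂ => w⁻¹) (𝓝[≠] 0) (cocompact ℂ) := by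
          rw [← Metric.cobounded_eq_cocompact]
          exact tendsto_inv₀_nhdsNE_zero
        have h2 : Tendsto (fun w : ℂ => ((w⁻¹ : ℂ) : P1)) (𝓝[≠] 0) (𝓝 (∞ : P1)) := by
          refine Tendsto.comp ?_ h1
          have := OnePoint.tendsto_coe_infty (X := ℂ)
          rwa [coclosedCompact_eq_cocompact] at this
        refine h2.congr' ?_
        filter_upwards [self_mem_nhdsWithin] with w hw
        have hw' : w ≠ 0 := hw
        simp [inv1_coe hw']
      · rw [tendsto_pure_left]
        intro s hs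
        simpa using mem_of_mem_nhds hs
    · have h1 : ContinuousAt (fun w : ℂ => ((w⁻¹ : ℂ) : P1)) z :=
        OnePoint.continuous_coe.continuousAt.comp (continuousAt_inv₀ hz)
      refine h1.congr ?_
      filter_upwards [isOpen_ne.mem_nhds hz] with w hw
      have hw' : w ≠ 0 := hw
      simp [inv1_coe hw']

/-- the braid relation `inv ∘ sub ∘ inv = sub ∘ inv ∘ sub`. -/
theorem inv1_sub1_inv1 (z : P1) : inv1 (sub1 (inv1 z)) = sub1 (inv1 (sub1 z)) := by
  induction z using OnePoint.rec with
  | infty => simp [inv1_coe]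
  | coe z =>
    by_cases hz : z = 0
    · subst hz
      simp [inv1_coe]
    · by_cases hz1 : z = 1
      · subst hz1
        simp [inv1_coe]
      · have h1 : (1 : ℂ) - z ≠ 0 := sub_ne_zero.2 (Ne.symm hz1)
        have h2 : (1 : ℂ) - z⁻¹ ≠ 0 := by
          rw [sub_ne_zero]; intro h
          exact hz1 (inv_eq_one.1 h.symm)
        rw [inv1_coe hz, sub1_coe, inv1_coe h2, sub1_coe, inv1_coe h1, sub1_coe]
        congr 1
        have h3 : z - 1 ≠ 0 := sub_ne_zero.2 hz1
        field_simp
        ring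

/-- The six anharmonic transformations. -/
inductive M6 | e | s | j | sj | js | m
  deriving DecidableEq

namespace M6

/-- composition table (`(a * b) z = a (b z)`), `s = sub1`, `j = inv1`. -/
def mul : M6 → M6 → M6
  | e, x => x
  | x, e => x
  | s, s => e | s, j => sj | s, sj => j | s, js => m | s, m => js
  | j, s => js | j, j => e | j, sj => m | j, js => s | j, m => sj
  | sj, s => m | sj, j => s | sj, sj => js | sj, js => e | sj, m => j
  | js, s => j | js, j => m | js, sj => e | js, js => sj | js, m => s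
  | m, s => sj | m, j => js | m, sj => s | m, js => j | m, m => e

def act : M6 → P1 → P1
  | e => fun z => z
  | s => sub1
  | j => inv1
  | sj => fun z => sub1 (inv1 z)
  | js => fun z => inv1 (sub1 z)
  | m => fun z => sub1 (inv1 (sub1 z))

theorem act_mul (a b : M6) (z : P1) : act (mul a b) z = act a (act b z) := by
  have h := inv1_sub1_inv1
  have h' : ∀ z, sub1 (inv1 (sub1 (inv1 z))) = inv1 (sub1 z) := fun z => by
    rw [h z, sub1_sub1]
  have h'' : ∀ z, inv1 (sub1 (inv1 (sub1 z))) = sub1 (inv1 z) := fun z => by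
    rw [h (sub1 z), sub1_sub1]
  have h3 : ∀ z, sub1 (inv1 (sub1 (inv1 (sub1 z)))) = inv1 z := fun z => by
    rw [h'', sub1_sub1]
  cases a <;> cases b <;> simp [mul, act, h, h', h'', h3]

theorem continuous_act (a : M6) : Continuous (act a) := by
  cases a
  · exact continuous_id
  · exact continuous_sub1
  · exact continuous_inv1
  · exact continuous_sub1.comp continuous_inv1
  · exact continuous_inv1.comp continuous_sub1
  · exact continuous_sub1.comp (continuous_inv1.comp continuous_sub1)

/-- inverse. -/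
def inv : M6 → M6
  | e => e | s => s | j => j | sj => js | js => sj | m => m

theorem inv_mul (a : M6) : mul (inv a) a = e := by cases a <;> rfl
theorem mul_inv (a : M6) : mul a (inv a) = e := by cases a <;> rfl

/-- The same transformations on complex numbers (meaningful off `0, 1`). -/
def actC : M6 → ℂ → ℂ
  | e => fun z => z
  | s => fun z => 1 - z
  | j => fun z => z⁻¹
  | sj => fun z => 1 - z⁻¹
  | js => fun z => (1 - z)⁻¹
  | m => fun z => 1 - (1 - z)⁻¹

theorem act_coe (a : M6) {z : ℂ} (h0 : z ≠ 0) (h1 : 1 - z ≠ 0) :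
    act a (z : P1) = ((actC a z : ℂ) : P1) := by
  cases a <;> simp [act, actC, inv1_coe h0, inv1_coe h1]

theorem actC_ne (a : M6) {z : ℂ} (h0 : z ≠ 0) (h1 : 1 - z ≠ 0) :
    actC a z ≠ 0 ∧ 1 - actC a z ≠ 0 := by
  have h0' : z⁻¹ ≠ 0 := inv_ne_zero h0
  have h1' : (1 - z)⁻¹ ≠ 0 := inv_ne_zero h1
  have h2 : (1 : ℂ) - z⁻¹ ≠ 0 := by
    intro h
    have : z⁻¹ = 1 := (sub_eq_zero.1 h).symm
    rw [inv_eq_one] at this
    exact h1 (by rw [this]; ring)
  have h3 : (1 : ℂ) - (1 - z)⁻¹ ≠ 0 := by
    intro h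
    have : (1 - z)⁻¹ = 1 := (sub_eq_zero.1 h).symm
    rw [inv_eq_one] at this
    exact h0 (by linear_combination -this)
  cases a <;> simp only [actC] <;> refine ⟨?_, ?_⟩ <;> first
    | assumption
    | (intro h; first
        | exact h0 (by linear_combination h)
        | exact h0' (by linear_combination h)
        | exact h1' (by linear_combination h))

end M6

end

end Vale.Agent.P300.H242
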