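import Vale.Agent.P300.H242.YVal
import Vale.Agent.P300.H707.SphY

/-!
# P300, block YBAR: the two spheres of the bad fibre, in `Y`

`S2` = `D''` (chart 5: `u = 0`), `S1` = `D'` (chart 5: `v = 0`), with the formulas on the full
domains of the charts of `Y`.
-/

open Set Filter Topology

namespace Vale.Agent.P300.H242

open Vale.Agent.P300.H839 Vale.Agent.P300.H707 Complex

noncomputable section

theorem isCh (ν : Fin 15) : IsCh io (H142.kap ν) (kapY ν) where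
  cont := (continuousOn_kapY ν).mono R_sub_Om
  eq _ hw h1 h2 := kapY_eq ν (Mod.Rp_subset_W ⟨hw, h1, h2⟩)

theorem continuousOn_kapYX : ContinuousOn kapYX Om := (chart owX).continuousOn_toFun

theorem isChX : IsCh io H142.kapX kapYX where
  cont := continuousOn_kapYX.mono R_sub_Om
  eq _ hw h1 h2 := kapYX_eq (Mod.Rp_subset_W ⟨hw, h1, h2⟩)

/-- `D''` (in chart 5: `u = 0`), `S.f w = kapY 5 (0, 1 - w)`. -/
def S2 : Sph Y := (exists_S2 (isCh 5) isChX (isCh 1)).choose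

/-- `D'` (in chart 5: `v = 0`), `S.f w = kapY 5 (1 - w, 0)`. -/
def S1 : Sph Y := (exists_S1 (isCh 5) (isCh 6) (isCh 9)).choose

theorem S2_spec : (∀ w, 1 - w ∈ slitPlane → S2.f w = kapYX (0, w)) ∧
    (∀ w, w ∈ slitPlane → S2.f w = kapY 5 (0, 1 - w)) ∧
    (∀ w, 1 - w ∈ slitPlane → S2.g w = kapY 1 (0, w / (w - 1))) ∧
    (∀ w, w ∈ slitPlane → S2.g w = kapY 5 (0, 1 - w⁻¹)) :=
  (exists_S2 (isCh 5) isChX (isCh 1)).choose_spec

theorem S1_spec : (∀ w, 1 - w ∈ slitPlane → S1.f w = kapY 6 (w, 0)) ∧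
    (∀ w, w ∈ slitPlane → S1.f w = kapY 5 (1 - w, 0)) ∧
    (∀ w, 1 - w ∈ slitPlane → S1.g w = kapY 9 (w / (w - 1), 0)) ∧
    (∀ w, w ∈ slitPlane → S1.g w = kapY 5 (1 - w⁻¹, 0)) :=
  (exists_S1 (isCh 5) (isCh 6) (isCh 9)).choose_spec

theorem isOpen_Om' : IsOpen Om := (chartY 0).open_source

theorem ext_aux {F G : ℂ → Y} {a : ℂ} (hF : ∀ w, w ≠ a → ContinuousAt F w)
    (hG : ∀ w, w ≠ a → ContinuousAt G w)
    (h : ∀ w : ℂ, w.im ≠ 0 → F w = G w) {w : ℂ} (hw : w ≠ a) : F w = G w := by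
  have hne := neBot_nonreal w
  have h1 : Tendsto F (𝓝[{z : ℂ | z.im ≠ 0}] w) (𝓝 (F w)) :=
    (hF w hw).tendsto.mono_left nhdsWithin_le_nhds
  have h2 : Tendsto G (𝓝[{z : ℂ | z.im ≠ 0}] w) (𝓝 (G w)) :=
    (hG w hw).tendsto.mono_left nhdsWithin_le_nhds
  refine tendsto_nhds_unique (h1.congr' ?_) h2
  filter_upwards [self_mem_nhdsWithin] with z hz
  exact h z hz

theorem zero_mem_Om {v : ℂ} (hv : v ≠ 1) : ((0 : ℂ), v) ∈ Om := by
  refine ⟨?_, ?_, ?_⟩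
  · simp
  · exact sub_ne_zero.2 (Ne.symm hv)
  · simp

theorem mem_zero_Om {v : ℂ} (hv : v ≠ 1) : (v, (0 : ℂ)) ∈ Om := by
  refine ⟨?_, ?_, ?_⟩
  · exact sub_ne_zero.2 (Ne.symm hv)
  · simp
  · simp

theorem contAt_left {k : ℂ × ℂ → Y} (hk : ContinuousOn k Om) {φ : ℂ → ℂ} {w : ℂ}
    (hφ : ContinuousAt φ w) (h : φ w ≠ 1) : ContinuousAt (fun w => k (0, φ w)) w :=
  ContinuousAt.comp (g := k) (f := fun w => ((0 : ℂ), φ w))
    (hk.continuousAt (isOpen_Om'.mem_nhds (zero_mem_Om h))) (continuousAt_const.prodMk hφ)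

theorem contAt_right {k : ℂ × ℂ → Y} (hk : ContinuousOn k Om) {φ : ℂ → ℂ} {w : ℂ}
    (hφ : ContinuousAt φ w) (h : φ w ≠ 1) : ContinuousAt (fun w => k (φ w, 0)) w :=
  ContinuousAt.comp (g := k) (f := fun w => (φ w, (0 : ℂ)))
    (hk.continuousAt (isOpen_Om'.mem_nhds (mem_zero_Om h))) (hφ.prodMk continuousAt_const)

theorem slit_of_im {w : ℂ} (hw : w.im ≠ 0) : w ∈ slitPlane := Or.inr hw

theorem slit_of_im' {w : ℂ} (hw : w.im ≠ 0) : 1 - w ∈ slitPlane :=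
  Or.inr (by simpa using hw)

theorem phi1 {w : ℂ} (hw : w ≠ 1) : w / (w - 1) ≠ 1 := by
  have h : w - 1 ≠ 0 := sub_ne_zero.2 hw
  intro h'
  rw [div_eq_one_iff_eq h] at h'
  have : (1 : ℂ) = 0 := by linear_combination h'
  exact one_ne_zero this

theorem phi1c {w : ℂ} (hw : w ≠ 1) : ContinuousAt (fun w : ℂ => w / (w - 1)) w :=
  continuousAt_id.div (by fun_prop) (sub_ne_zero.2 hw)

theorem phi2 {w : ℂ} (hw : w ≠ 0) : 1 - w⁻¹ ≠ 1 := by
  intro h'
  have : w⁻¹ = 0 := by linear_combination -h'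
  exact hw (inv_eq_zero.1 this)

theorem phi2c {w : ℂ} (hw : w ≠ 0) : ContinuousAt (fun w : ℂ => 1 - w⁻¹) w :=
  continuousAt_const.sub (continuousAt_inv₀ hw)

theorem phi3 {w : ℂ} (hw : w ≠ 0) : 1 - w ≠ 1 := by
  intro h'
  exact hw (by linear_combination -h')

/-- `D''` in the extra chart -/
theorem S2_f_X {w : ℂ} (hw : w ≠ 1) : S2.f w = kapYX (0, w) :=
  ext_aux (fun _ _ => S2.f.continuous.continuousAt)
    (fun _ h => contAt_left continuousOn_kapYX continuousAt_id h)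
    (fun _ h => S2_spec.1 _ (slit_of_im' h)) hw

/-- `D''` in chart 5 -/
theorem S2_f {w : ℂ} (hw : w ≠ 0) : S2.f w = kapY 5 (0, 1 - w) :=
  ext_aux (fun _ _ => S2.f.continuous.continuousAt)
    (fun _ h => contAt_left (continuousOn_kapY 5) (by fun_prop) (phi3 h))
    (fun _ h => S2_spec.2.1 _ (slit_of_im h)) hw

/-- `D''` at infinity, in chart 1 -/
theorem S2_g_1 {w : ℂ} (hw : w ≠ 1) : S2.g w = kapY 1 (0, w / (w - 1)) :=
  ext_aux (fun _ _ => S2.g.continuous.continuousAt)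
    (fun _ h => contAt_left (continuousOn_kapY 1) (phi1c h) (phi1 h))
    (fun _ h => S2_spec.2.2.1 _ (slit_of_im' h)) hw

theorem S2_g {w : ℂ} (hw : w ≠ 0) : S2.g w = kapY 5 (0, 1 - w⁻¹) :=
  ext_aux (fun _ _ => S2.g.continuous.continuousAt)
    (fun _ h => contAt_left (continuousOn_kapY 5) (phi2c h) (phi2 h))
    (fun _ h => S2_spec.2.2.2 _ (slit_of_im h)) hw

/-- `D'` in chart 6 -/
theorem S1_f_6 {w : ℂ} (hw : w ≠ 1) : S1.f w = kapY 6 (w, 0) :=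
  ext_aux (fun _ _ => S1.f.continuous.continuousAt)
    (fun _ h => contAt_right (continuousOn_kapY 6) continuousAt_id h)
    (fun _ h => S1_spec.1 _ (slit_of_im' h)) hw

/-- `D'` in chart 5 -/
theorem S1_f {w : ℂ} (hw : w ≠ 0) : S1.f w = kapY 5 (1 - w, 0) :=
  ext_aux (fun _ _ => S1.f.continuous.continuousAt)
    (fun _ h => contAt_right (continuousOn_kapY 5) (by fun_prop) (phi3 h))
    (fun _ h => S1_spec.2.1 _ (slit_of_im h)) hw

/-- `D'` at infinity, in chart 9 -/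
theorem S1_g_9 {w : ℂ} (hw : w ≠ 1) : S1.g w = kapY 9 (w / (w - 1), 0) :=
  ext_aux (fun _ _ => S1.g.continuous.continuousAt)
    (fun _ h => contAt_right (continuousOn_kapY 9) (phi1c h) (phi1 h))
    (fun _ h => S1_spec.2.2.1 _ (slit_of_im' h)) hw

theorem S1_g {w : ℂ} (hw : w ≠ 0) : S1.g w = kapY 5 (1 - w⁻¹, 0) :=
  ext_aux (fun _ _ => S1.g.continuous.continuousAt)
    (fun _ h => contAt_right (continuousOn_kapY 5) (phi2c h) (phi2 h))
    (fun _ h => S1_spec.2.2.2 _ (slit_of_im h)) hw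

/-- the bad node -/
theorem S2_one : S2.f 1 = kapY 5 (0, 0) := by
  rw [S2_f one_ne_zero, sub_self]

theorem S1_one : S1.f 1 = kapY 5 (0, 0) := by
  rw [S1_f one_ne_zero, sub_self]

end

end Vale.Agent.P300.H242
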