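import Vale.Agent.P300.H242.Geo

/-!
# P300 / C1-YBAR : transition maps, Moebius form of the coordinates, second countability.
-/

open Topology Filter Set OnePoint

namespace Vale.Agent.P300.H242

noncomputable section

set_option linter.unusedSimpArgs false

/-- `f : C^2 → P^1` is holomorphic at `p`. -/
def MorP (f : ℂ × ℂ → P1) (p : ℂ × ℂ) : Prop :=
  ∃ h : ℂ × ℂ → ℂ, AnalyticAt ℂ h p ∧
    ((∀ᶠ q in 𝓝 p, f q = ((h q : ℂ) : P1)) ∨ (∀ᶠ q in 𝓝 p, f q = inv1 ((h q : ℂ) : P1)))

theorem MorP.inv {f : ℂ × ℂ → P1} {p : ℂ × ℂ} (hf : MorP f p) : MorP (fun q => inv1 (f q)) p := by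
  obtain ⟨h, ha, h1 | h1⟩ := hf
  · exact ⟨h, ha, Or.inr (h1.mono fun q hq => by simp only [hq])⟩
  · exact ⟨h, ha, Or.inl (h1.mono fun q hq => by simp only [hq, inv1_inv1])⟩

theorem MorP.sub {f : ℂ × ℂ → P1} {p : ℂ × ℂ} (hf : MorP f p) : MorP (fun q => sub1 (f q)) p := by
  obtain ⟨h, ha, h1 | h1⟩ := hf
  · exact ⟨fun q => 1 - h q, analyticAt_const.sub ha,
      Or.inl (h1.mono fun q hq => by simp only [hq, sub1_coe])⟩
  · by_cases h0 : h p = 0
    · -- near `p`, `1 - h ≠ 0`, and `1 - 1/h = inv (h / (h - 1))`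
      have hne : h p - 1 ≠ 0 := by rw [h0]; norm_num
      have hev : ∀ᶠ q in 𝓝 p, h q - 1 ≠ 0 :=
        (ha.continuousAt.sub continuousAt_const).eventually_ne hne
      refine ⟨fun q => h q / (h q - 1), ha.div (ha.sub analyticAt_const) hne, Or.inr ?_⟩
      filter_upwards [h1, hev] with q hq hq1
      simp only [hq]
      by_cases hz : h q = 0
      · rw [hz]; simp
      · rw [inv1_coe hz, sub1_coe, inv1_coe (div_ne_zero hz hq1), OnePoint.coe_eq_coe, inv_div]
        field_simp
    · have hev : ∀ᶠ q in 𝓝 p, h q ≠ 0 := ha.continuousAt.eventually_ne h0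
      refine ⟨fun q => 1 - (h q)⁻¹, analyticAt_const.sub (ha.inv h0), Or.inl ?_⟩
      filter_upwards [h1, hev] with q hq hq1
      simp only [hq, inv1_coe hq1, sub1_coe]

theorem MorP.act (a : M6) {f : ℂ × ℂ → P1} {p : ℂ × ℂ} (hf : MorP f p) :
    MorP (fun q => a.act (f q)) p := by
  cases a
  · exact hf
  · exact hf.sub
  · exact hf.inv
  · exact hf.inv.sub
  · exact hf.sub.inv
  · exact hf.sub.inv.sub

/-- the finite part of a `P^1`-valued holomorphic map is holomorphic where it is finite. -/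
theorem MorP.toC {f : ℂ × ℂ → P1} {p : ℂ × ℂ} (hf : MorP f p) (hp : f p ≠ ∞) :
    AnalyticAt ℂ (fun q => toC (f q)) p := by
  obtain ⟨h, ha, h1 | h1⟩ := hf
  · exact ha.congr (h1.mono fun q hq => by simp only [hq, toC_coe])
  · have h0 : h p ≠ 0 := by
      intro h0
      apply hp
      rw [h1.self_of_nhds, h0, inv1_zero]
    have hev : ∀ᶠ q in 𝓝 p, h q ≠ 0 := ha.continuousAt.eventually_ne h0
    refine (ha.inv h0).congr ?_
    filter_upwards [h1, hev] with q hq hq1
    simp only [hq, inv1_coe hq1, toC_coe, Pi.inv_apply]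

theorem analyticAt_cc (i : Fin 5) {p : ℂ × ℂ} (hp : p ∈ Om) :
    AnalyticAt ℂ (fun q : ℂ × ℂ => cc q i) p := by
  have h : (1 - p.1 * p.2 : ℂ) ≠ 0 := hp.2.2
  have a1 : AnalyticAt ℂ (fun q : ℂ × ℂ => q.1) p := analyticAt_fst
  have a2 : AnalyticAt ℂ (fun q : ℂ × ℂ => q.2) p := analyticAt_snd
  fin_cases i
  · exact (analyticAt_const.sub a2).div (analyticAt_const.sub (a1.mul a2)) h
  · exact a2
  · exact a1.mul a2
  · exact a1
  · exact (a1.mul (analyticAt_const.sub a2)).div (analyticAt_const.sub (a1.mul a2)) h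

theorem morP_kap0 (i : Fin 5) {p : ℂ × ℂ} (hp : p ∈ Om) : MorP (fun q => kap0 q i) p :=
  ⟨_, analyticAt_cc i hp, Or.inl (Eventually.of_forall fun _ => rfl)⟩

theorem morP_wact (w : List (Fin 5)) (i : Fin 5) {p : ℂ × ℂ} (hp : p ∈ Om) :
    MorP (fun q => wact w (kap0 q) i) p :=
  (morP_kap0 ((wr w).p i) hp).act ((wr w).m i)

/-- **the transition maps of the node charts are analytic.** -/
theorem analyticAt_trans (w w' : List (Fin 5)) {p : ℂ × ℂ} (hp : p ∈ Om)
    (hp' : kap w p ∈ (chart w').target) :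
    AnalyticAt ℂ (fun q => (chart w').symm (chart w q)) p := by
  have hV : wact w'.reverse (wact w (kap0 p)) ∈ V0 := by
    have : wact w'.reverse (kap w p : Fin 5 → P1) ∈ V0 := hp'
    rwa [kap_val w hp] at this
  rw [← wact_append] at hV
  have h3 := (morP_wact (w'.reverse ++ w) 3 hp).toC hV.2.1
  have h1 := (morP_wact (w'.reverse ++ w) 1 hp).toC hV.1
  refine (h3.prod h1).congr ?_
  filter_upwards [isOpen_Om.mem_nhds hp] with q hq
  simp only [chart_symm_coe, chart_coe, unkap, kap_val w hq, unk, wact_append]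

theorem analyticAt_transY (ν μ : Fin 15) {p : ℂ × ℂ} (hp : p ∈ Om)
    (hp' : kapY ν p ∈ (chartY μ).target) :
    AnalyticAt ℂ (fun q => (chartY μ).symm (chartY ν q)) p :=
  analyticAt_trans _ _ hp hp'

/-- the homogeneous form of the anharmonic transformations. -/
def M6.num : M6 → ℂ → ℂ
  | .e => fun z => z
  | .s => fun z => 1 - z
  | .j => fun _ => 1
  | .sj => fun z => z - 1
  | .js => fun _ => 1
  | .m => fun z => z

def M6.den : M6 → ℂ → ℂ
  | .e => fun _ => 1
  | .s => fun _ => 1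
  | .j => fun z => z
  | .sj => fun z => z
  | .js => fun z => 1 - z
  | .m => fun z => z - 1

/-- `[a : b] ∈ P^1`. -/
def frac (a b : ℂ) : P1 := if b = 0 then ∞ else ((a / b : ℂ) : P1)

theorem frac_eq_iff {a b a' b' : ℂ} (h : a ≠ 0 ∨ b ≠ 0) (h' : a' ≠ 0 ∨ b' ≠ 0) :
    frac a b = frac a' b' ↔ a * b' = a' * b := by
  by_cases hb : b = 0
  · have ha : a ≠ 0 := h.resolve_right (not_not.2 hb)
    by_cases hb' : b' = 0
    · simp [frac, hb, hb']
    · simp [frac, hb, hb', ha]
  · by_cases hb' : b' = 0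
    · have ha' : a' ≠ 0 := h'.resolve_right (not_not.2 hb')
      simp [frac, hb, hb', ha']
    · simp only [frac, hb, hb', if_false, OnePoint.coe_eq_coe]
      exact div_eq_div_iff hb hb'

theorem M6.num_den (a : M6) (z : ℂ) : a.num z ≠ 0 ∨ a.den z ≠ 0 := by
  cases a <;> simp only [M6.num, M6.den, ne_eq, one_ne_zero, not_false_eq_true, or_true, true_or]
  · by_cases h : z = 0
    · left; rw [h]; norm_num
    · exact Or.inr h
  · by_cases h : z = 0
    · right; rw [h]; norm_num
    · exact Or.inl h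

theorem M6.act_frac (a : M6) (z : ℂ) : a.act (z : P1) = frac (a.num z) (a.den z) := by
  by_cases h0 : z = 0
  · subst h0
    cases a <;> simp [M6.act, M6.num, M6.den, frac, inv1_coe]
  · by_cases h1 : z = 1
    · subst h1
      cases a <;> simp [M6.act, M6.num, M6.den, frac, inv1_coe]
    · have h1' : 1 - z ≠ 0 := sub_ne_zero.2 (Ne.symm h1)
      have h1'' : z - 1 ≠ 0 := sub_ne_zero.2 h1
      cases a <;>
        simp only [M6.act, M6.num, M6.den, frac, inv1_coe h0, inv1_coe h1', sub1_coe, h0, h1',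
          h1'', one_ne_zero, if_false, OnePoint.coe_eq_coe]
      · simp
      · simp
      · simp
      · field_simp
      · simp
      · field_simp; ring

/-- the five coordinates in a node chart, everywhere on `Om`. -/
theorem crd_kapY (ν : Fin 15) (j : Fin 5) {w : ℂ × ℂ} (hw : w ∈ Om) :
    crd j (kapY ν w) = frac (((wr (ow ν)).m j).num (cc w ((wr (ow ν)).p j)))
      (((wr (ow ν)).m j).den (cc w ((wr (ow ν)).p j))) := by
  rw [crd, kapY, kap_val _ hw, ← M6.act_frac]; rfl

theorem kapY_eq_kapY_iff (ν μ : Fin 15) {w w' : ℂ × ℂ} (hw : w ∈ Om) (hw' : w' ∈ Om) :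
    kapY ν w = kapY μ w' ↔ ∀ j : Fin 5,
      ((wr (ow ν)).m j).num (cc w ((wr (ow ν)).p j)) *
        ((wr (ow μ)).m j).den (cc w' ((wr (ow μ)).p j)) =
      ((wr (ow μ)).m j).num (cc w' ((wr (ow μ)).p j)) *
        ((wr (ow ν)).m j).den (cc w ((wr (ow ν)).p j)) := by
  constructor
  · intro h j
    have := congrArg (crd j) h
    rw [crd_kapY ν j hw, crd_kapY μ j hw', frac_eq_iff (M6.num_den _ _) (M6.num_den _ _)] at this
    exact this
  · intro h
    refine crd_ext fun j => ?_
    rw [crd_kapY ν j hw, crd_kapY μ j hw', frac_eq_iff (M6.num_den _ _) (M6.num_den _ _)]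
    exact h j

instance : SecondCountableTopology Y := by
  have h : ∀ ν : Fin 15, SecondCountableTopology ((chartY ν).target) := fun ν =>
    (chartY ν).toHomeomorphSourceTarget.symm.isEmbedding.secondCountableTopology
  refine TopologicalSpace.secondCountableTopology_of_countable_cover
    (U := fun ν => (chartY ν).target) (fun ν => (chartY ν).open_target) ?_
  refine eq_univ_of_forall fun y => ?_
  obtain ⟨ν, q, hq, h⟩ := coverY y
  refine mem_iUnion.2 ⟨ν, ?_⟩
  rw [← h]
  exact (chartY ν).map_source (KK_sub hq)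

end

end Vale.Agent.P300.H242
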